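import Vale.Agent.P291Z.Bnd
import Vale.Agent.P291Z.Jor0
import Vale.Agent.P291Z.HigF0

/-!
# The induction isomorphism for bundles of kernels
-/

set_option linter.all false

namespace Vale.Agent.P291Z

open Set Function Topology Matrix

attribute [local instance] Via.top Via.act Via.nice

theorem exists_ker_frame {n : Type} [Fintype n] [DecidableEq n] {m : ℕ} {C : Matrix n n ℂ}
    {τ : Matrix (Fin m) n ℂ} {σ : Matrix n (Fin m) ℂ} (h1 : C * σ = 0) (h2 : τ * σ = 1) :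
    ∃ (a : ℕ) (b : Matrix n (Fin m ⊕ Fin a) ℂ) (L : Matrix (Fin m ⊕ Fin a) n ℂ),
      m + a = Jor.nul C ∧ L * b = 1 ∧ C * b = 0 ∧ τ * b = fromCols 1 0 ∧
      ∀ x : Matrix n (Fin m) ℂ, C * x = 0 → b * (L * x) = x := by
  let K := LinearMap.ker C.mulVecLin ⊓ LinearMap.ker τ.mulVecLin
  let e := (Module.finBasis ℂ K).equivFun.symm
  let B := LinearMap.toMatrix' (K.subtype ∘ₗ e.toLinearMap)
  have hB : ∀ v, B *ᵥ v = e v := fun v => LinearMap.toMatrix'_mulVec _ v
  have h3 : C * fromCols σ B = 0 := by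
    rw [mul_fromCols, h1, ext_iff_mulVec.2 fun v => ((mulVec_mulVec v C B).symm.trans
      ((congrArg _ (hB v)).trans (e v).2.1)).trans (zero_mulVec v).symm, fromCols_zero]
  have h4 : τ * fromCols σ B = fromCols 1 0 := by
    rw [mul_fromCols, h2, ext_iff_mulVec.2 fun v => ((mulVec_mulVec v τ B).symm.trans
      ((congrArg _ (hB v)).trans (e v).2.2)).trans (zero_mulVec v).symm]
  have h5 : LinearMap.ker (fromCols σ B).mulVecLin = ⊥ := LinearMap.ker_eq_bot'.2 fun v hv => by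
    have h6 : τ *ᵥ fromCols σ B *ᵥ v = τ *ᵥ 0 := congrArg (τ *ᵥ ·) hv
    rw [mulVec_mulVec, h4, fromCols_mulVec, one_mulVec, zero_mulVec, add_zero, mulVec_zero] at h6
    rw [mulVecLin_apply, fromCols_mulVec, h6, mulVec_zero, zero_add, hB] at hv
    rw [← Sum.elim_comp_inl_inr v, h6, e.map_eq_zero_iff.1 (Subtype.ext hv), Sum.elim_zero_zero]
  have h6 : LinearMap.range (fromCols σ B).mulVecLin = LinearMap.ker C.mulVecLin := by
    refine le_antisymm (LinearMap.range_le_ker_iff.2 (by rw [← mulVecLin_mul, h3, mulVecLin_zero]))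
      fun v hv => ⟨Sum.elim (τ *ᵥ v) (e.symm ⟨v - σ *ᵥ τ *ᵥ v, ?_, ?_⟩), ?_⟩
    · change C *ᵥ _ = 0
      rw [mulVec_sub, mulVec_mulVec _ C, h1, zero_mulVec, sub_zero]
      exact hv
    · change τ *ᵥ _ = 0
      rw [mulVec_sub, mulVec_mulVec _ τ, h2, one_mulVec, sub_self]
    · rw [mulVecLin_apply, fromCols_mulVec_sumElim, hB, e.apply_symm_apply, add_sub_cancel]
  obtain ⟨L, hL⟩ := LinearMap.exists_leftInverse_of_injective _ h5
  have h7 : LinearMap.toMatrix' L * fromCols σ B = 1 := ext_iff_mulVec.2 fun v => by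
    rw [← mulVec_mulVec, LinearMap.toMatrix'_mulVec, one_mulVec]
    exact LinearMap.congr_fun hL v
  refine ⟨_, _, _, ?_, h7, h3, h4, fun x hx => ext_iff_mulVec.2 fun v => ?_⟩
  · rw [Jor.nul, ← h6, LinearMap.finrank_range_of_inj (LinearMap.ker_eq_bot.1 h5)]
    simp
  · obtain ⟨u, hu⟩ := h6.ge (show C *ᵥ x *ᵥ v = 0 by rw [mulVec_mulVec, hx, zero_mulVec])
    rw [← mulVec_mulVec, ← mulVec_mulVec, ← hu, mulVecLin_apply, mulVec_mulVec u, h7, one_mulVec]

section bim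

variable {J G : Type} [Group G] {n n₂ : J → ℕ} (α : G →* GG n) (β : G →* GG n₂)

/-- Matrices with the action by left and right multiplication. -/
def BiM (_ : G →* GG n) (_ : G →* GG n₂) : Type := ∀ j, Matrix (Fin (n j)) (Fin (n₂ j)) ℂ

noncomputable instance : AddCommGroup (BiM α β) := Pi.addCommGroup

noncomputable instance : Module ℂ (BiM α β) := Pi.module _ _ _

noncomputable instance : TopologicalSpace (BiM α β) := Pi.topologicalSpace

noncomputable instance : DistribMulAction G (BiM α β) where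
  smul g x j := (α g j).1 * x j * ((β g)⁻¹ j).1
  one_smul x := funext fun j => by
    change (α 1 j).1 * x j * ((β 1)⁻¹ j).1 = x j
    simp
  mul_smul g h x := funext fun j => by
    change (α (g * h) j).1 * x j * ((β (g * h))⁻¹ j).1 =
      (α g j).1 * ((α h j).1 * x j * ((β h)⁻¹ j).1) * ((β g)⁻¹ j).1
    simp only [map_mul, _root_.mul_inv_rev, Pi.mul_apply, Units.val_mul, Matrix.mul_assoc]
  smul_zero g := funext fun j => (congrArg (· * _) (Matrix.mul_zero _)).trans (Matrix.zero_mul _)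
  smul_add g x y := funext fun j =>
    (congrArg (· * _) (Matrix.mul_add _ _ _)).trans (Matrix.add_mul _ _ _)

variable {α β}

theorem isRep_BiM [Fintype J] [TopologicalSpace G] (hα : Continuous α) (hβ : Continuous β) :
    IsRep G (BiM α β) (Module.finrank ℂ (∀ j, Matrix (Fin (n j)) (Fin (n₂ j)) ℂ)) := by
  refine ⟨(show Nonempty ((∀ j, Matrix (Fin (n j)) (Fin (n₂ j)) ℂ) ≃L[ℂ] (Fin _ → ℂ)) from
      ⟨ContinuousLinearEquiv.ofFinrankEq (Module.finrank_fin_fun ℂ).symm⟩),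
    ⟨fun g c x => funext fun j => ?_⟩, ⟨continuous_pi fun j => ?_⟩⟩
  · change (α g j).1 * (c • x j) * ((β g)⁻¹ j).1 = c • ((α g j).1 * x j * ((β g)⁻¹ j).1)
    rw [Matrix.mul_smul, Matrix.smul_mul]
  · change Continuous fun x : G × BiM α β => (α x.1 j).1 * x.2 j * ((β x.1 j)⁻¹).1
    exact ((Units.continuous_val.comp ((continuous_apply j).comp
      (hα.comp continuous_fst))).matrix_mul ((continuous_apply j).comp continuous_snd)).matrix_mul
      (Units.continuous_coe_inv.comp ((continuous_apply j).comp (hβ.comp continuous_fst)))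

end bim

variable {J₁ J₂ : Type} [Fintype J₁] [Fintype J₂] {n₁ : J₁ → ℕ} {n₂ n : J₂ → ℕ}
  {G : Type} [Group G] [TopologicalSpace G] [Sys G] (S : SysProd G (GG n₁) (GG n₂))
  {Z P : Type} [TopologicalSpace Z] [MulAction (GG n₁) Z] [Nice Z] [ContinuousSMul (GG n₁) Z]
  [TopologicalSpace P] [MulAction G P] [Nice P] [ContinuousSMul G P]

/-- `P` is the open part `O` of the bundle `{(z, x) | C z * x = 0}`, and in each fibre `O` is the
set where the top blocks `τ * x` are invertible. -/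
theorem bnd_ind {α : G →* GG n} (hα : Continuous α) (hα1 : ∀ g, S.π₁ g = 1 → α g = 1)
    {C : Z → Sp.En n} (hC : Continuous C)
    (hCs : ∀ g z j, C (S.π₁ g • z) j * (α g j).1 = (α g j).1 * C z j)
    {r : ℕ} (hr : ∀ z, ∑ j, Jor.nul (C z j) * n₂ j = r) {d : ℕ} (hd : HasDim Z d)
    {p : P → Z} {κ : P → ∀ j, Matrix (Fin (n j)) (Fin (n₂ j)) ℂ}
    (hp : ∀ (g : G) y, p (g • y) = S.π₁ g • p y)
    (hκ : ∀ (g : G) y j, κ (g • y) j = (α g j).1 * κ y j * ((S.π₂ g)⁻¹ j).1)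
    (he : IsEmbedding fun y => (p y, κ y))
    {O : Set (Z × ∀ j, Matrix (Fin (n j)) (Fin (n₂ j)) ℂ)} (hO : IsOpen O)
    (hra : ∀ z x, (∃ y, p y = z ∧ κ y = x) ↔ (∀ j, C z j * x j = 0) ∧ (z, x) ∈ O)
    (hf : ∀ z, ∃ (τ : ∀ j, Matrix (Fin (n₂ j)) (Fin (n j)) ℂ)
      (σ : ∀ j, Matrix (Fin (n j)) (Fin (n₂ j)) ℂ), (∀ j, C z j * σ j = 0 ∧ τ j * σ j = 1) ∧
      ∀ x : ∀ j, Matrix (Fin (n j)) (Fin (n₂ j)) ℂ, (∀ j, C z j * x j = 0) →
        ((z, x) ∈ O ↔ ∀ j, (τ j * x j).det ≠ 0))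
    {D : ℤ} {h : ℤ → ℕ} : Bnd (GG n₁) Z D h ↔ Bnd G P (D + r) h := by
  have hW := isRep_BiM hα S.continuous_π₂
  have := Via.cont S.π₁ Z S.continuous_π₁
  let V : SubMulAction G (Via S.π₁ Z × BiM α S.π₂) := ⟨{x | ∀ j, C x.1 j * x.2 j = 0},
    fun g x hx j => by
      change C (S.π₁ g • id (α := Z) x.1) j * ((α g j).1 * x.2 j * _) = 0
      rw [← Matrix.mul_assoc, ← Matrix.mul_assoc, hCs, Matrix.mul_assoc _ _ (x.2 j),
        show C (id x.1) j * x.2 j = 0 from hx j, Matrix.mul_zero, Matrix.zero_mul]⟩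
  choose τ σ h1 h2 using hf
  choose a b L h3 h4 h5 h6 h7 using fun z j => exists_ker_frame (h1 z j).1 (h1 z j).2
  let ψ : ∀ z, (∀ j, Matrix (Fin (n₂ j) ⊕ Fin (a z j)) (Fin (n₂ j)) ℂ) →ₗ[ℂ] BiM α S.π₂ := fun z =>
    ⟨⟨fun x j => b z j * x j, fun _ _ => funext fun _ => Matrix.mul_add _ _ _⟩,
      fun c x => funext fun j => Matrix.mul_smul (b z j) c (x j)⟩
  have h8 : ∀ z, Injective (ψ z) := fun z x y e => funext fun j => by
    rw [← Matrix.one_mul (x j), ← h4, Matrix.mul_assoc, show b z j * x j = b z j * y j from congrFun e j,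
      ← Matrix.mul_assoc, h4, Matrix.one_mul]
  have h9 : ∀ z w, (z, w) ∈ V ↔ w ∈ range (ψ z) := fun z w =>
    ⟨fun hw => ⟨fun j => L z j * w j, funext fun j => h7 z j _ (hw j)⟩, by
      rintro ⟨x, rfl⟩ j
      exact (Matrix.mul_assoc _ _ _).symm.trans ((congrArg (· * _) (h5 z j)).trans
        (Matrix.zero_mul _))⟩
  have h0 : Continuous fun (x : Z × ∀ j, Matrix (Fin (n j)) (Fin (n₂ j)) ℂ) j => C x.1 j * x.2 j :=
    continuous_pi fun j => ((continuous_apply j).comp (hC.comp continuous_fst)).matrix_mul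
      ((continuous_apply j).comp continuous_snd)
  have hV : IsSubVB V r := ⟨(congrArg IsClosed (Set.ext fun _ => funext_iff)).mp
      (isClosed_eq h0 continuous_zero),
    fun z => ⟨LinearMap.range (ψ z), by
      rw [LinearMap.finrank_range_of_inj (h8 z), ← hr z, Module.finrank_pi_fintype]
      exact Finset.sum_congr rfl fun j _ => by simp [Module.finrank_matrix, ← h3 z j], h9 z⟩⟩
  have := hV.nice hW
  have := hW.cont
  let j : P →[G] V := ⟨fun y => ⟨(p y, κ y), ((hra _ _).1 ⟨y, rfl, rfl⟩).1⟩,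
    fun g y => Subtype.ext (Prod.ext (hp g y) (funext (hκ g y)))⟩
  have h10 : ∀ v : V, v ∈ range j ↔ v.1 ∈ O := fun v =>
    ⟨fun ⟨y, hy⟩ => hy ▸ ((hra _ _).1 ⟨y, rfl, rfl⟩).2, fun hv =>
      ((hra _ _).2 ⟨v.2, hv⟩).imp fun y hy => Subtype.ext (Prod.ext hy.1 hy.2)⟩
  have hj : IsOpenEmbedding j := ⟨he.codRestrict (V : Set (Via S.π₁ Z × BiM α S.π₂)) _,
    (congrArg IsOpen (Set.ext h10)).mpr (hO.preimage continuous_subtype_val)⟩
  have hi : IndFib S V j := fun z : Z => ⟨a z, ψ z, h8 z, h9 z, fun g x hg => funext fun j => by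
      change b z j * (x j * ((S.π₂ g)⁻¹ j).1) = (α g j).1 * (b z j * x j) * ((S.π₂ g)⁻¹ j).1
      rw [hα1 g hg, Pi.one_apply, Units.val_one, Matrix.one_mul, Matrix.mul_assoc],
    fun x hx => (h10 _).trans ((h2 z _ hx).trans (forall_congr' fun j => by
      change (τ z j * (b z j * x j)).det ≠ 0 ↔ _
      rw [← Matrix.mul_assoc, h6, ← fromRows_toRows (x j),
        fromCols_mul_fromRows, Matrix.one_mul, Matrix.zero_mul, add_zero, toRows₁_fromRows]))⟩
  have hb : ∀ (g : G) (y : Via S.π₁ Z), id (α := Z) (g • y) = S.π₁ g • id (α := Z) y :=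
    fun _ _ => rfl
  have h11 := qstar_bijective' S hb V hV.zero_mem j IsHomeomorph.id hd hW hV hj hi
  have h12 := fun k β => qstar_deg S hb V hV.zero_mem j IsHomeomorph.id hW hV hj (k := k) (β := β)
  exact ⟨fun H => H.of_bijective h11 h12, fun H => add_sub_cancel_right D r ▸ H.of_bijective' h11 h12⟩

end Vale.Agent.P291Z
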