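import Vale.Agent.P291Z.Jor0

/-!
# The model of a Jordan type: definitions
-/

set_option linter.all false

namespace Vale.Agent.P291Z.Jor

open Set Function Topology Matrix Module
open scoped Kronecker

variable {K : ℕ}

/-- the basis vectors of the model: block size, number of the block, position -/
abbrev Bl (μ : Fin K → ℕ) : Type := Σ k : Fin K, Fin (μ k) × Fin (k.1 + 1)

/-- the shift -/
def sh (n : ℕ) : Matrix (Fin n) (Fin n) ℂ := Matrix.of fun a b => if a.1 = b.1 + 1 then 1 else 0

/-- the nilpotent model -/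
noncomputable def Jm (μ : Fin K → ℕ) : Matrix (Bl μ) (Bl μ) ℂ :=
  blockDiagonal' fun k => (1 : Matrix (Fin (μ k)) (Fin (μ k)) ℂ) ⊗ₖ sh (k.1 + 1)

variable {μ ν : Fin K → ℕ}

/-- the reductive part of the centralizer -/
noncomputable def lev (g : ∀ k, Matrix (Fin (μ k)) (Fin (μ k)) ℂ) : Matrix (Bl μ) (Bl μ) ℂ :=
  blockDiagonal' fun k => g k ⊗ₖ (1 : Matrix (Fin (k.1 + 1)) (Fin (k.1 + 1)) ℂ)

/-- the generators of the blocks of size `k + 1` -/
noncomputable def gen (μ : Fin K → ℕ) (k : Fin K) : Matrix (Bl μ) (Fin (μ k)) ℂ :=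
  (1 : Matrix (Bl μ) (Bl μ) ℂ).submatrix id fun a => ⟨k, a, 0⟩

variable {n n' : Type} [Fintype n] [DecidableEq n] [Fintype n'] [DecidableEq n']

/-- the map from the model with given images of the generators -/
noncomputable def ph (N : Matrix n n ℂ) (x : ∀ k, Matrix n (Fin (μ k)) ℂ) : Matrix n (Bl μ) ℂ :=
  Matrix.of fun r p => (N ^ p.2.2.1 * x p.1) r p.2.1

/-- A decomposition of `ℂ ^ n` into two parts with bases indexed by `α` and `β`. -/
structure Fr (n α β : Type) [Fintype n] [DecidableEq n] [Fintype α] [DecidableEq α] [Fintype β]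
    [DecidableEq β] where
  /-- first inclusion -/
  ia : Matrix n α ℂ
  /-- first projection -/
  pa : Matrix α n ℂ
  /-- second inclusion -/
  ib : Matrix n β ℂ
  /-- second projection -/
  pb : Matrix β n ℂ
  aa : pa * ia = 1
  ab : pa * ib = 0
  ba : pb * ia = 0
  bb : pb * ib = 1
  sum : ia * pa + ib * pb = 1

variable {α β α' β' : Type} [Fintype α] [DecidableEq α] [Fintype β] [DecidableEq β] [Fintype α']
  [DecidableEq α'] [Fintype β'] [DecidableEq β']

/-- block diagonal matrices -/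
noncomputable def Fr.blk (F : Fr n α β) (F' : Fr n' α' β') (A : Matrix α α' ℂ)
    (B : Matrix β β' ℂ) : Matrix n n' ℂ :=
  F.ia * A * F'.pa + F.ib * B * F'.pb

/-- intertwiners -/
def Itw (A : Matrix α α ℂ) (B : Matrix β β ℂ) : Submodule ℂ (Matrix α β ℂ) where
  carrier := {x | A * x = x * B}
  add_mem' {x y} hx hy := by
    rw [mem_setOf_eq, Matrix.mul_add, Matrix.add_mul, show A * x = _ from hx, show A * y = _ from hy]
  zero_mem' := by rw [mem_setOf_eq, Matrix.mul_zero, Matrix.zero_mul]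
  smul_mem' c x hx := by
    rw [mem_setOf_eq, Matrix.mul_smul, Matrix.smul_mul, show A * x = _ from hx]

theorem mem_Itw {A : Matrix α α ℂ} {B : Matrix β β ℂ} {x : Matrix α β ℂ} :
    x ∈ Itw A B ↔ A * x = x * B := Iff.rfl

variable {I : Type}

/-- frames at all vertices -/
abbrev Frs (v : I → ℕ) (m : JT I K) (v' : I → ℕ) : Type :=
  ∀ i, Fr (Fin (v i)) (Bl fun k => m (i, k)) (Fin (v' i))

/-- the normal form -/
noncomputable def mdl {v v' : I → ℕ} {m : JT I K} (F : Frs v m v') (c : ℂ) (B : Sp.En v') :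
    Sp.En v := fun i => (F i).blk (F i) (Jm _ + c • 1) (B i)

end Vale.Agent.P291Z.Jor
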