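import Vale.Agent.P291Z.HE2.Jm

/-!
# The model of a Jordan type: calculus
-/

set_option linter.all false

namespace Vale.Agent.P291Z.Jor

open Set Function Topology Matrix Module
open scoped Kronecker

variable {K : ℕ} {μ ν : Fin K → ℕ}

theorem card_Bl (μ : Fin K → ℕ) : Fintype.card (Bl μ) = ∑ k, μ k * (k.1 + 1) := by
  simp [Fintype.card_sigma]

theorem mul_gen {r : Type} (X : Matrix r (Bl μ) ℂ) (k : Fin K) (s : r) (a : Fin (μ k)) :
    (X * gen μ k) s a = X s ⟨k, a, 0⟩ := by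
  simp [gen, Matrix.mul_apply, Matrix.one_apply]

theorem sh_pow (n j : ℕ) (a b : Fin n) : (sh n ^ j) a b = if a.1 = b.1 + j then 1 else 0 := by
  induction j generalizing a with
  | zero => simp [Matrix.one_apply, Fin.val_inj]
  | succ j ih =>
    rw [pow_succ', Matrix.mul_apply]
    simp only [ih]
    by_cases h : a.1 = b.1 + (j + 1)
    · rw [if_pos h, Finset.sum_eq_single ⟨b.1 + j, by omega⟩]
      · simp [sh, h, add_assoc]
      · intro c _ hc
        rw [if_neg fun e => hc (Fin.ext e), mul_zero]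
      · simp
    · rw [if_neg h]
      refine Finset.sum_eq_zero fun c _ => ?_
      by_cases hc : c.1 = b.1 + j
      · rw [sh, of_apply, if_neg (by omega), zero_mul]
      · rw [if_neg hc, mul_zero]

theorem Jm_pow (j : ℕ) : Jm μ ^ j =
    blockDiagonal' fun k => (1 : Matrix (Fin (μ k)) (Fin (μ k)) ℂ) ⊗ₖ (sh (k.1 + 1) ^ j) := by
  induction j with
  | zero =>
    simp only [pow_zero, one_kronecker_one]
    exact blockDiagonal'_one.symm
  | succ j ih =>
    rw [pow_succ, ih, Jm, ← blockDiagonal'_mul]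
    simp only [← mul_kronecker_mul, Matrix.mul_one, pow_succ]

theorem lev_one : lev (μ := μ) (fun _ => 1) = 1 := by
  simp only [lev, one_kronecker_one]
  exact blockDiagonal'_one

theorem lev_mul (g h : ∀ k, Matrix (Fin (μ k)) (Fin (μ k)) ℂ) :
    lev (fun k => g k * h k) = lev g * lev h := by
  rw [lev, lev, lev, ← blockDiagonal'_mul]
  simp only [← mul_kronecker_mul, Matrix.mul_one]

theorem lev_Jm (g : ∀ k, Matrix (Fin (μ k)) (Fin (μ k)) ℂ) : lev g * Jm μ = Jm μ * lev g := by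
  rw [lev, Jm, ← blockDiagonal'_mul, ← blockDiagonal'_mul]
  simp only [← mul_kronecker_mul, Matrix.mul_one, Matrix.one_mul]

theorem lev_gen (g : ∀ k, Matrix (Fin (μ k)) (Fin (μ k)) ℂ) (k : Fin K) :
    lev g * gen μ k = gen μ k * g k := by
  ext ⟨l, b, p⟩ a
  rw [mul_gen, lev, Matrix.mul_apply]
  by_cases h : l = k
  · subst h
    rw [blockDiagonal'_apply_eq, kroneckerMap_apply]
    by_cases hp : p = 0
    · subst hp
      simp [gen, Matrix.one_apply]
    · simp [gen, Matrix.one_apply, hp]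
  · rw [blockDiagonal'_apply_ne _ _ _ h]
    simp [gen, Matrix.one_apply, h]

theorem continuous_lev {T : Type} [TopologicalSpace T]
    {g : T → ∀ k, Matrix (Fin (μ k)) (Fin (μ k)) ℂ} (hg : ∀ k, Continuous fun t => g t k) :
    Continuous fun t => lev (g t) := by
  refine Continuous.matrix_blockDiagonal' (continuous_pi fun k => continuous_matrix fun a b => ?_)
  exact ((hg k).matrix_elem _ _).mul continuous_const

theorem Jm_pow_gen (k : Fin K) : Jm μ ^ (k.1 + 1) * gen μ k = 0 := by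
  ext ⟨l, b, p⟩ a
  rw [mul_gen, Jm_pow]
  by_cases h : l = k
  · subst h
    rw [blockDiagonal'_apply_eq, kroneckerMap_apply, sh_pow, if_neg (by have := p.2; omega),
      mul_zero, Matrix.zero_apply]
  · rw [blockDiagonal'_apply_ne _ _ _ h, Matrix.zero_apply]

theorem Jm_pow_K : Jm μ ^ K = 0 := by
  ext ⟨l, b, p⟩ ⟨k, a, r⟩
  rw [Jm_pow]
  by_cases h : l = k
  · subst h
    rw [blockDiagonal'_apply_eq, kroneckerMap_apply, sh_pow,
      if_neg (by have := p.2; have := l.2; omega), mul_zero, Matrix.zero_apply]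
  · rw [blockDiagonal'_apply_ne _ _ _ h, Matrix.zero_apply]

theorem gen_gen (k : Fin K) : (gen μ k)ᵀ * gen μ k = 1 := by
  ext a b
  rw [mul_gen]
  simp [gen, Matrix.one_apply, eq_comm]

variable {n n' n'' : Type} [Fintype n] [DecidableEq n] [Fintype n'] [DecidableEq n'] [Fintype n'']
  [DecidableEq n'']

theorem ph_gen (N : Matrix n n ℂ) (x : ∀ k, Matrix n (Fin (μ k)) ℂ) (k : Fin K) :
    ph N x * gen μ k = x k := by
  ext r a
  rw [mul_gen]
  simp [ph]

theorem ph_Jm : ph (Jm μ) (gen μ) = 1 := by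
  ext ⟨l, b, p⟩ ⟨k, a, r⟩
  rw [ph, of_apply, mul_gen, Jm_pow]
  by_cases h : l = k
  · subst h
    rw [blockDiagonal'_apply_eq, kroneckerMap_apply, sh_pow]
    by_cases h1 : b = a <;> by_cases h2 : p = r <;> simp [Matrix.one_apply, h1, h2, Fin.val_inj]
  · rw [blockDiagonal'_apply_ne _ _ _ h, one_apply_ne fun e => h (congrArg Sigma.fst e)]

theorem mul_ph {N : Matrix n n ℂ} {x : ∀ k, Matrix n (Fin (μ k)) ℂ}
    (h : ∀ k, N ^ (k.1 + 1) * x k = 0) : N * ph N x = ph N x * Jm μ := by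
  ext r ⟨k, a, p⟩
  have e : (N * ph N x) r ⟨k, a, p⟩ = (N ^ (p.1 + 1) * x k) r a := by
    rw [pow_succ', Matrix.mul_assoc]
    rfl
  rw [e, Matrix.mul_apply (M := ph N x), Fintype.sum_sigma, Finset.sum_eq_single k]
  · rw [Fintype.sum_prod_type, Finset.sum_eq_single a]
    · simp only [Jm, blockDiagonal'_apply_eq, kroneckerMap_apply, one_apply_eq, one_mul, sh,
        of_apply, ph]
      by_cases hp : p.1 + 1 < k.1 + 1
      · rw [Finset.sum_eq_single ⟨p.1 + 1, hp⟩]
        · simp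
        · intro s _ hs
          rw [if_neg fun e => hs (Fin.ext e), mul_zero]
        · simp
      · rw [show p.1 + 1 = k.1 + 1 by have := p.2; omega, h k, Matrix.zero_apply]
        exact (Finset.sum_eq_zero fun s _ => by
          rw [if_neg (by have := s.2; omega), mul_zero]).symm
    · intro b _ hb
      simp [Jm, Matrix.one_apply, hb]
    · simp
  · intro l _ hl
    exact Finset.sum_eq_zero fun s _ => by rw [Jm, blockDiagonal'_apply_ne _ _ _ hl, mul_zero]
  · simp

theorem ph_map {N : Matrix n n ℂ} {N' : Matrix n' n' ℂ} {g : Matrix n' n ℂ} (h : g * N = N' * g)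
    (x : ∀ k, Matrix n (Fin (μ k)) ℂ) : ph N' (fun k => g * x k) = g * ph N x := by
  have e : ∀ j : ℕ, g * N ^ j = N' ^ j * g := fun j => by
    induction j with
    | zero => simp
    | succ j ih => rw [pow_succ, pow_succ, ← Matrix.mul_assoc, ih, Matrix.mul_assoc, h,
        Matrix.mul_assoc]
  ext r p
  rw [ph, of_apply, ← Matrix.mul_assoc, ← e, Matrix.mul_assoc]
  rfl

theorem continuous_ph {T : Type} [TopologicalSpace T] {N : T → Matrix n n ℂ}
    {x : T → ∀ k, Matrix n (Fin (μ k)) ℂ} (hN : Continuous N)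
    (hx : ∀ k, Continuous fun t => x t k) : Continuous fun t => ph (N t) (x t) := by
  exact continuous_matrix fun r p => ((hN.pow _).matrix_mul (hx _)).matrix_elem _ _

variable {α β α' β' α'' β'' : Type} [Fintype α] [DecidableEq α] [Fintype β] [DecidableEq β]
  [Fintype α'] [DecidableEq α'] [Fintype β'] [DecidableEq β'] [Fintype α''] [DecidableEq α'']
  [Fintype β''] [DecidableEq β'']

theorem Fr.nonempty (h : Fintype.card n = Fintype.card α + Fintype.card β) :
    Nonempty (Fr n α β) := by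
  let e : n ≃ α ⊕ β := Fintype.equivOfCardEq (by rw [h, Fintype.card_sum])
  have key : ∀ {γ δ : Type} (f : γ → n) (g : δ → n),
      (1 : Matrix n n ℂ).submatrix f id * (1 : Matrix n n ℂ).submatrix id g =
        (1 : Matrix n n ℂ).submatrix f g := fun f g => by
    ext a b
    simp [Matrix.mul_apply, Matrix.one_apply]
  refine ⟨⟨(1 : Matrix n n ℂ).submatrix id (fun a => e.symm (Sum.inl a)),
    (1 : Matrix n n ℂ).submatrix (fun a => e.symm (Sum.inl a)) id,
    (1 : Matrix n n ℂ).submatrix id (fun a => e.symm (Sum.inr a)),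
    (1 : Matrix n n ℂ).submatrix (fun a => e.symm (Sum.inr a)) id, ?_, ?_, ?_, ?_, ?_⟩⟩
  · rw [key]
    ext a b
    simp [Matrix.one_apply]
  · rw [key]
    ext a b
    simp [Matrix.one_apply]
  · rw [key]
    ext a b
    simp [Matrix.one_apply]
  · rw [key]
    ext a b
    simp [Matrix.one_apply]
  · ext r s
    obtain ⟨r, rfl⟩ := e.symm.surjective r
    obtain ⟨s, rfl⟩ := e.symm.surjective s
    rcases r with r | r <;> rcases s with s | s <;>
      simp [Matrix.mul_apply, Matrix.one_apply, eq_comm]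

namespace Fr

variable (F : Fr n α β) (F' : Fr n' α' β') (F'' : Fr n'' α'' β'') (A : Matrix α α' ℂ)
  (B : Matrix β β' ℂ)

theorem blk_ia : F.blk F' A B * F'.ia = F.ia * A := by
  rw [blk, Matrix.add_mul, Matrix.mul_assoc, Matrix.mul_assoc _ F'.pb, F'.aa, F'.ba, Matrix.mul_one,
    Matrix.mul_zero, add_zero]

theorem blk_ib : F.blk F' A B * F'.ib = F.ib * B := by
  rw [blk, Matrix.add_mul, Matrix.mul_assoc, Matrix.mul_assoc _ F'.pb, F'.ab, F'.bb, Matrix.mul_one,
    Matrix.mul_zero, zero_add]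

theorem pa_blk : F.pa * F.blk F' A B = A * F'.pa := by
  simp only [blk, Matrix.mul_add, ← Matrix.mul_assoc, F.aa, F.ab, Matrix.one_mul, Matrix.zero_mul,
    add_zero]

theorem pb_blk : F.pb * F.blk F' A B = B * F'.pb := by
  simp only [blk, Matrix.mul_add, ← Matrix.mul_assoc, F.ba, F.bb, Matrix.one_mul, Matrix.zero_mul,
    zero_add]

theorem blk_mul (A' : Matrix α' α'' ℂ) (B' : Matrix β' β'' ℂ) :
    F.blk F' A B * F'.blk F'' A' B' = F.blk F'' (A * A') (B * B') := by
  rw [blk.eq_1 F' F'', Matrix.mul_add]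
  simp only [← Matrix.mul_assoc, blk_ia, blk_ib]
  simp only [blk, Matrix.mul_assoc]

theorem blk_one : F.blk F 1 1 = 1 := by
  rw [blk, Matrix.mul_one, Matrix.mul_one, F.sum]

theorem blk_add (A' : Matrix α α' ℂ) (B' : Matrix β β' ℂ) :
    F.blk F' (A + A') (B + B') = F.blk F' A B + F.blk F' A' B' := by
  simp only [blk, Matrix.mul_add, Matrix.add_mul]
  abel

theorem blk_smul (c : ℂ) : F.blk F' (c • A) (c • B) = c • F.blk F' A B := by
  simp only [blk, Matrix.mul_smul, Matrix.smul_mul, smul_add]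

theorem blk_sub_smul_one (A : Matrix α α ℂ) (B : Matrix β β ℂ) (c : ℂ) :
    F.blk F A B - c • 1 = F.blk F (A - c • 1) (B - c • 1) := by
  rw [sub_eq_iff_eq_add, ← F.blk_one, ← blk_smul, ← blk_add, sub_add_cancel,
    sub_add_cancel]

theorem blk_pow (A : Matrix α α ℂ) (B : Matrix β β ℂ) (j : ℕ) :
    F.blk F A B ^ j = F.blk F (A ^ j) (B ^ j) := by
  induction j with
  | zero => rw [pow_zero, pow_zero, pow_zero, blk_one]
  | succ j ih => rw [pow_succ, pow_succ, pow_succ, ih, blk_mul]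

variable {A B} in
theorem eq_blk {X : Matrix n n' ℂ} (h1 : X * F'.ia = F.ia * A) (h2 : X * F'.ib = F.ib * B) :
    X = F.blk F' A B := by
  rw [blk, ← h1, ← h2, Matrix.mul_assoc, Matrix.mul_assoc, ← Matrix.mul_add, F'.sum, Matrix.mul_one]

theorem continuous_blk {T : Type} [TopologicalSpace T] {A : T → Matrix α α' ℂ}
    {B : T → Matrix β β' ℂ} (hA : Continuous A) (hB : Continuous B) :
    Continuous fun t => F.blk F' (A t) (B t) := by
  exact ((continuous_const.matrix_mul hA).matrix_mul continuous_const).add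
    ((continuous_const.matrix_mul hB).matrix_mul continuous_const)

theorem nul_blk' (F F' : Fr n α β) (A : Matrix α α ℂ) (B : Matrix β β ℂ) :
    nul (F.blk F' A B) = nul A + nul B := by
  rw [nul, nul, nul, ← Module.finrank_prod]
  refine LinearEquiv.finrank_eq
    { toFun := fun v => (⟨F'.pa *ᵥ v.1, ?_⟩, ⟨F'.pb *ᵥ v.1, ?_⟩)
      invFun := fun w => ⟨F'.ia *ᵥ w.1.1 + F'.ib *ᵥ w.2.1, ?_⟩
      map_add' := fun v w => Prod.ext (Subtype.ext (mulVec_add _ _ _))
        (Subtype.ext (mulVec_add _ _ _))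
      map_smul' := fun c v => Prod.ext (Subtype.ext (mulVec_smul _ _ _))
        (Subtype.ext (mulVec_smul _ _ _))
      left_inv := fun v => Subtype.ext ?_
      right_inv := fun w => Prod.ext (Subtype.ext ?_) (Subtype.ext ?_) }
  · have hv : F.blk F' A B *ᵥ v.1 = 0 := v.2
    show A *ᵥ F'.pa *ᵥ v.1 = 0
    rw [mulVec_mulVec, ← pa_blk F F' A B, ← mulVec_mulVec, hv, mulVec_zero]
  · have hv : F.blk F' A B *ᵥ v.1 = 0 := v.2
    show B *ᵥ F'.pb *ᵥ v.1 = 0
    rw [mulVec_mulVec, ← pb_blk F F' A B, ← mulVec_mulVec, hv, mulVec_zero]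
  · have h1 : A *ᵥ w.1.1 = 0 := w.1.2
    have h2 : B *ᵥ w.2.1 = 0 := w.2.2
    show F.blk F' A B *ᵥ (F'.ia *ᵥ w.1.1 + F'.ib *ᵥ w.2.1) = 0
    rw [mulVec_add, mulVec_mulVec, mulVec_mulVec, blk_ia, blk_ib, ← mulVec_mulVec,
      ← mulVec_mulVec, h1, h2, mulVec_zero, mulVec_zero, add_zero]
  · show F'.ia *ᵥ F'.pa *ᵥ v.1 + F'.ib *ᵥ F'.pb *ᵥ v.1 = v.1
    rw [mulVec_mulVec, mulVec_mulVec, ← add_mulVec, F'.sum, one_mulVec]
  · show F'.pa *ᵥ (F'.ia *ᵥ w.1.1 + F'.ib *ᵥ w.2.1) = w.1.1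
    rw [mulVec_add, mulVec_mulVec, mulVec_mulVec, F'.aa, F'.ab, one_mulVec, zero_mulVec, add_zero]
  · show F'.pb *ᵥ (F'.ia *ᵥ w.1.1 + F'.ib *ᵥ w.2.1) = w.2.1
    rw [mulVec_add, mulVec_mulVec, mulVec_mulVec, F'.ba, F'.bb, one_mulVec, zero_mulVec, zero_add]

theorem det_blk_ne_zero (F F' : Fr n α β) (A : Matrix α α ℂ) (B : Matrix β β ℂ) :
    (F.blk F' A B).det ≠ 0 ↔ A.det ≠ 0 ∧ B.det ≠ 0 := by
  rw [← nul_eq_zero, ← nul_eq_zero, ← nul_eq_zero, nul_blk', Nat.add_eq_zero_iff]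

theorem nul_blk (A : Matrix α α ℂ) (B : Matrix β β ℂ) : nul (F.blk F A B) = nul A + nul B := by
  exact nul_blk' F F A B

end Fr

end Vale.Agent.P291Z.Jor
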