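import Vale.Agent.P291Z.HE2.JmA
import Vale.Agent.P291Z.Jor.Det

/-!
# The model of a Jordan type: automorphisms and dimensions
-/

set_option linter.all false

namespace Vale.Agent.P291Z.Jor

open Set Function Topology Matrix Module
open scoped Kronecker

variable {K : ℕ} {μ ν : Fin K → ℕ}

theorem Jm_eq (μ : Fin K → ℕ) : Jm μ = JorM.J μ :=
  congrArg blockDiagonal' (funext fun k => Matrix.ext fun p q => by
    by_cases h : p.1 = q.1 <;> simp [sh, one_apply, h])

theorem nul_Jm_pow (μ : Fin K → ℕ) (j : ℕ) : nul (Jm μ ^ j) = ka μ j := by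
  rw [Jm_eq]
  exact JorM.finrank_ker_J j

/-- an endomorphism of the model is invertible exactly when its top blocks are -/
theorem det_ph_Jm {x : ∀ k, Matrix (Bl μ) (Fin (μ k)) ℂ} (hx : ∀ k, Jm μ ^ (k.1 + 1) * x k = 0) :
    (ph (Jm μ) x).det ≠ 0 ↔ ∀ k, ((gen μ k)ᵀ * x k).det ≠ 0 := by
  rw [Jm_eq] at hx ⊢
  refine (JorM.det_ne_zero_iff (JorM.mul_gen_iff.2 hx)).trans (forall_congr' fun k => ?_)
  rw [show JorM.top (JorM.gen (JorM.J μ) x) k = (gen μ k)ᵀ * x k from Matrix.ext fun a b => by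
    refine (congrFun (congrFun (congrFun (JorM.hd_gen (JorM.J μ) x) k) _) b).trans ?_
    simp [gen, mul_apply, one_apply]]

theorem finrank_Itw (μ ν : Fin K → ℕ) :
    finrank ℂ (Itw (Jm μ) (Jm ν)) = ∑ k, ∑ l, μ k * ν l * min (k.1 + 1) (l.1 + 1) := by
  rw [Jm_eq, Jm_eq]
  exact JorM.finrank_Int_J μ

theorem finrank_Itw_zero (w : ℕ) (μ : Fin K → ℕ) :
    finrank ℂ (Itw (0 : Matrix (Fin w) (Fin w) ℂ) (Jm μ)) = w * ∑ k, μ k := by
  rw [Jm_eq]
  exact JorM.finrank_Int_zero.trans (by rw [Fintype.card_fin])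

variable {α β : Type} [Fintype α] [DecidableEq α] [Fintype β] [DecidableEq β]

theorem pow_mul_of_comm {A : Matrix α α ℂ} {B : Matrix β β ℂ} {x : Matrix α β ℂ}
    (h : A * x = x * B) (j : ℕ) : A ^ j * x = x * B ^ j := by
  induction j with
  | zero => rw [pow_zero, pow_zero, Matrix.one_mul, Matrix.mul_one]
  | succ j ih => rw [pow_succ', Matrix.mul_assoc, ih, ← Matrix.mul_assoc, h, Matrix.mul_assoc,
      pow_succ']

/-- no intertwiners between the nilpotent model and an invertible matrix -/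
theorem eq_zero_of_Jm {B : Matrix β β ℂ} (hB : B.det ≠ 0) {x : Matrix (Bl μ) β ℂ}
    (h : Jm μ * x = x * B) : x = 0 := by
  have := pow_mul_of_comm h K
  rw [Jm_eq, JorM.J_pow_K, Matrix.zero_mul] at this
  rw [← Matrix.mul_nonsing_inv_cancel_right (B ^ K) x (by rw [det_pow]; exact hB.isUnit.pow K),
    ← this, Matrix.zero_mul]

theorem eq_zero_of_Jm' {B : Matrix β β ℂ} (hB : B.det ≠ 0) {x : Matrix β (Bl μ) ℂ}
    (h : B * x = x * Jm μ) : x = 0 := by
  have := pow_mul_of_comm h K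
  rw [Jm_eq, JorM.J_pow_K, Matrix.mul_zero] at this
  rw [← Matrix.nonsing_inv_mul_cancel_left (B ^ K) x (by rw [det_pow]; exact hB.isUnit.pow K),
    this, Matrix.mul_zero]

theorem det_Jm_add {c : ℂ} (hc : c ≠ 0) : (Jm μ + c • 1).det ≠ 0 := by
  have h : IsNilpotent (Jm μ) := ⟨K, by rw [Jm_eq, JorM.J_pow_K]⟩
  have h1 : IsUnit (c • (1 : Matrix (Bl μ) (Bl μ) ℂ)) := IsUnit.smul (Units.mk0 c hc) isUnit_one
  exact ((isUnit_iff_isUnit_det _).1 (h.isUnit_add_right_of_commute h1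
    ((Commute.one_right _).smul_right c))).ne_zero

end Vale.Agent.P291Z.Jor
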