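import Vale.Agent.P291Z.HE2.JmB

/-!
# Spectral data of the normal form
-/

set_option linter.all false

namespace Vale.Agent.P291Z.Jor

open Set Function Topology Matrix Module Polynomial

theorem det_scalar_sub {n : Type} [Fintype n] [DecidableEq n] (a : Matrix n n ℂ) (t : ℂ) :
    (scalar n t - a).det = 0 ↔ (a - t • 1).det = 0 := by
  rw [← neg_sub, det_neg, mul_eq_zero_iff_left (by simp), scalar_apply, ← smul_one_eq_diagonal]

theorem mem_spec' {I : Type} {v : I → ℕ} {ξ : Sp.En v} {t : ℂ} :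
    t ∈ Sp.spec ξ ↔ ∃ i, (ξ i - t • 1).det = 0 :=
  Sp.mem_spec.trans (exists_congr fun _ => det_scalar_sub _ _)

variable {K : ℕ} {I : Type} [Fintype I] {v v' : I → ℕ} {m : JT I K} (F : Frs v m v') {c : ℂ}
  {B : Sp.En v'}

theorem det_ne_of_spec (h : c ∉ Sp.spec B) (i : I) : (B i - c • 1).det ≠ 0 :=
  fun h' => h (mem_spec'.2 ⟨i, h'⟩)

theorem mdl_sub' (c t : ℂ) (B : Sp.En v') (i : I) :
    mdl F c B i - t • 1 = (F i).blk (F i) (Jm _ + (c - t) • 1) (B i - t • 1) := by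
  rw [mdl, Fr.blk_sub_smul_one, sub_smul, add_sub_assoc]

theorem mdl_sub (c : ℂ) (B : Sp.En v') (i : I) :
    mdl F c B i - c • 1 = (F i).blk (F i) (Jm _) (B i - c • 1) := by
  rw [mdl_sub', sub_self, zero_smul, add_zero]

theorem spec_subset_mdl (c : ℂ) (B : Sp.En v') : Sp.spec B ⊆ Sp.spec (mdl F c B) := by
  intro t ht
  obtain ⟨i, hi⟩ := mem_spec'.1 ht
  refine mem_spec'.2 ⟨i, ?_⟩
  rw [mdl_sub']
  by_contra h
  exact ((Fr.det_blk_ne_zero _ _ _ _).1 h).2 hi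

theorem spec_mdl_subset (c : ℂ) (B : Sp.En v') : Sp.spec (mdl F c B) ⊆ insert c (Sp.spec B) := by
  intro t ht
  obtain ⟨i, hi⟩ := mem_spec'.1 ht
  rw [mdl_sub'] at hi
  by_contra h
  rw [mem_insert_iff, not_or] at h
  exact (Fr.det_blk_ne_zero _ _ _ _).2
    ⟨det_Jm_add (sub_ne_zero.2 (Ne.symm h.1)), det_ne_of_spec h.2 i⟩ hi

theorem JS_mdl (h : c ∉ Sp.spec B) : JS c m (mdl F c B) := by
  refine JS_iff.2 fun i j => ?_
  rw [mdl_sub, Fr.blk_pow, Fr.nul_blk, nul_Jm_pow,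
    nul_eq_zero.2 (by rw [det_pow]; exact pow_ne_zero _ (det_ne_of_spec h i)), add_zero]

theorem prj_mdl (h : c ∉ Sp.spec B) (i : I) :
    Sp.prj {c}ᶜ (mdl F c B) i = (F i).blk (F i) 0 1 := by
  refine congrFun (Sp.prj_unique (P := fun i => (F i).blk (F i) 0 1) (f := ∏ i, (B i).charpoly)
    (g := (X - C c) ^ K) (funext fun i => ?_) (fun t ht => ?_) (fun t ht => ?_) (fun i => ?_)
    fun i => ?_) i
  · show (F i).blk (F i) 0 1 * mdl F c B i = mdl F c B i * (F i).blk (F i) 0 1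
    rw [mdl, Fr.blk_mul, Fr.blk_mul, Matrix.zero_mul, Matrix.mul_zero, Matrix.one_mul,
      Matrix.mul_one]
  · rw [eval_prod, Finset.prod_eq_zero_iff] at ht
    obtain ⟨i, -, hi⟩ := ht
    rw [eval_charpoly] at hi
    intro h'
    rw [mem_singleton_iff.1 h'] at hi
    exact h (Sp.mem_spec.2 ⟨i, hi⟩)
  · rw [eval_pow, eval_sub, eval_X, eval_C] at ht
    exact fun h' => h' (sub_eq_zero.1 (eq_zero_of_pow_eq_zero ht))
  · have h1 : mdl F c B i * (F i).ib = (F i).ib * B i := Fr.blk_ib _ _ _ _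
    have h2 : aeval (B i) (∏ i, (B i).charpoly) = 0 := by
      obtain ⟨g, hg⟩ := Finset.dvd_prod_of_mem (fun i => (B i).charpoly) (Finset.mem_univ i)
      rw [hg, map_mul, aeval_self_charpoly, zero_mul]
    show _ * (F i).blk (F i) 0 1 = 0
    rw [Fr.blk, Matrix.mul_zero, Matrix.zero_mul, zero_add, Matrix.mul_one, ← Matrix.mul_assoc,
      Sp.aeval_intertwine h1, h2, Matrix.mul_zero, Matrix.zero_mul]
  · have h1 : 1 - (F i).blk (F i) 0 1 = (F i).blk (F i) 1 0 := by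
      rw [sub_eq_iff_eq_add, ← Fr.blk_add, add_zero, zero_add, Fr.blk_one]
    show _ * (1 - (F i).blk (F i) 0 1) = 0
    rw [h1, map_pow, map_sub, aeval_X, aeval_C, Algebra.algebraMap_eq_smul_one, mdl_sub,
      Fr.blk_pow, Fr.blk_mul, Jm_pow_K, Matrix.zero_mul, Matrix.mul_zero, Fr.blk]
    simp

theorem tot_mdl (h : c ∉ Sp.spec B) : Sp.tot {c}ᶜ (mdl F c B) = ∑ i, v' i := by
  refine Finset.sum_congr rfl fun i _ => ?_
  have h1 := Sp.trace_prj {c}ᶜ (mdl F c B) i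
  rw [prj_mdl F h, Fr.blk, Matrix.mul_zero, Matrix.zero_mul, zero_add, Matrix.mul_one,
    trace_mul_comm, (F i).bb, trace_one, Fintype.card_fin] at h1
  exact_mod_cast h1.symm

end Vale.Agent.P291Z.Jor
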