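import Vale.Agent.P291Z.HE2.JmB

/-!
# The Jordan normal form at one eigenvalue
-/

set_option linter.all false

namespace Vale.Agent.P291Z.Jor

open Set Function Topology Matrix Module

variable {K : ℕ} {μ : Fin K → ℕ} {n β : Type} [Fintype n] [DecidableEq n] [Fintype β]
  [DecidableEq β]

theorem exists_nf {N : Matrix n n ℂ} (h : ∀ j, nul (N ^ j) = ka μ j)
    (hβ : Fintype.card n = ∑ k, μ k * (k.1 + 1) + Fintype.card β) :
    ∃ (F : Fr n (Bl μ) β) (B : Matrix β β ℂ), B.det ≠ 0 ∧ N = F.blk F (Jm μ) B := by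
  obtain ⟨φ, φ', B, h1, h2, h3, h4⟩ := JorM.exists_jordan N h hβ
  rw [← fromCols_toCols φ, ← fromRows_toRows φ'] at h1 h2
  rw [fromRows_mul_fromCols, ← fromBlocks_one, fromBlocks_inj] at h2
  rw [← fromCols_toCols φ, mul_fromCols, fromCols_mul_fromBlocks, fromCols_ext_iff,
    Matrix.mul_zero, Matrix.mul_zero, add_zero, zero_add, ← Jm_eq] at h4
  exact ⟨⟨φ.toCols₁, φ'.toRows₁, φ.toCols₂, φ'.toRows₂, h2.1, h2.2.1, h2.2.2.1, h2.2.2.2,
    (fromCols_mul_fromRows _ _ _ _).symm.trans h1⟩, B, h3, Fr.eq_blk _ _ h4.1 h4.2⟩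

/-- generators of the nilpotent part -/
theorem exists_gens {N : Matrix n n ℂ} (h : ∀ j, nul (N ^ j) = ka μ j) :
    ∃ x : ∀ k, Matrix n (Fin (μ k)) ℂ, (∀ k, N ^ (k.1 + 1) * x k = 0) ∧
      Injective (ph N x).mulVec := by
  have h0 := (ka_of_le μ le_rfl).symm.trans_le ((h K).symm.trans_le (nul_le _))
  obtain ⟨F, B, -, rfl⟩ := exists_nf (β := Fin (Fintype.card n - ∑ k, μ k * (k.1 + 1))) h (by
    rw [Fintype.card_fin]
    omega)
  refine ⟨fun k => F.ia * gen μ k, fun k => ?_, ?_⟩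
  · rw [Fr.blk_pow, ← Matrix.mul_assoc, Fr.blk_ia, Matrix.mul_assoc, Jm_pow_gen, Matrix.mul_zero]
  · rw [ph_map (Fr.blk_ia F F _ _).symm, ph_Jm, Matrix.mul_one]
    exact LeftInverse.injective (g := F.pa.mulVec) fun y => by
      rw [mulVec_mulVec, F.aa, one_mulVec]

variable {I : Type} [Fintype I] {v v' : I → ℕ} {m : JT I K} {c : ℂ}

theorem exists_mdl {ξ : Sp.En v} (h : JS c m ξ) (hv : ∀ i, v i = m.dv i + v' i) :
    ∃ (F : Frs v m v') (B : Sp.En v'), c ∉ Sp.spec B ∧ ξ = mdl F c B := by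
  choose F B h1 h2 using fun i => exists_nf (β := Fin (v' i)) (JS_iff.1 h i) (by
    rw [Fintype.card_fin, Fintype.card_fin]
    exact hv i)
  refine ⟨F, fun i => B i + c • 1, fun hc => ?_, funext fun i => ?_⟩
  · obtain ⟨i, hi⟩ := Sp.mem_spec.1 hc
    rw [scalar_apply, ← smul_one_eq_diagonal, sub_add_cancel_right, det_neg] at hi
    exact mul_ne_zero (by simp) (h1 i) hi
  · rw [mdl, Fr.blk_add, Fr.blk_smul, Fr.blk_one, ← h2, sub_add_cancel]

end Vale.Agent.P291Z.Jor
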