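import Vale.Agent.P291Z.HE2.IndG

/-!
# The homology of `Z × G` with the action of `H × G`
-/

set_option linter.all false

namespace Vale.Agent.P291Z

open Set Function Topology Matrix

theorem isEmbedding_glVal {k : ℕ} : IsEmbedding (Units.val : GL (Fin k) ℂ → _) :=
  Units.isEmbedding_val_mk' (f := Inv.inv) (fun A hA => (continuousAt_matrix_inv _ (by
    rw [Ring.inverse_eq_inv']
    exact continuousAt_inv₀ ((isUnit_iff_isUnit_det A).1 hA).ne_zero)).continuousWithinAt)
    fun u => (coe_units_inv u).symm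

variable {J I : Type} [Fintype J] [Fintype I] {n : J → ℕ} {v : I → ℕ}

theorem isEmbedding_ggVal : IsEmbedding fun (g : GG v) i => (g i).1 :=
  IsEmbedding.piMap fun _ => isEmbedding_glVal

theorem isOpen_dets {T : Type} [TopologicalSpace T] {f : T → Sp.En v}
    (hf : ∀ i, Continuous fun t => f t i) : IsOpen {t | ∀ i, (f t i).det ≠ 0} := by
  simp only [setOf_forall]
  exact isOpen_iInter_of_finite fun i => isOpen_ne_fun (hf i).matrix_det continuous_const

theorem nice_GG (v : I → ℕ) : Nice (GG v) :=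
  have : Nice (Sp.En v) := inferInstanceAs (Nice (∀ j, Fin (v j) → Fin (v j) → ℂ))
  Nice.of_isEmbedding isEmbedding_ggVal (IsOpen.isLocallyClosed (by
    refine Eq.subst (Set.ext fun x => ⟨fun h => ⟨fun i => GL0.toGL (x i), ?_⟩, ?_⟩)
      (isOpen_dets (f := id) fun i => continuous_apply i)
    · exact funext fun i => GL0.toGL_val (h i)
    · rintro ⟨g, rfl⟩ i
      exact GL0.det_gl_ne (g i)))

/-- Inclusion of the first factor. -/
def inlG {J' : Type} (n : J → ℕ) (n' : J' → ℕ) : GG n →* GG (Sum.elim n n') where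
  toFun g j := match j with
    | Sum.inl j => g j
    | Sum.inr _ => 1
  map_one' := funext fun j => by cases j <;> rfl
  map_mul' _ _ := funext fun j => by cases j; exacts [rfl, (mul_one _).symm]

theorem continuous_inlG {J' : Type} (n : J → ℕ) (n' : J' → ℕ) : Continuous (inlG n n') :=
  continuous_pi fun j => by
    rcases j with j | j
    exacts [continuous_apply j, continuous_const]

/-- `Z × G` with the action of `H × G` -/
def Pf {ρ : GG n →* GG v} (_ : Continuous ρ) (Z : Type) : Type := Z × GG v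

variable {ρ : GG n →* GG v} {hρ : Continuous ρ} {Z : Type} [TopologicalSpace Z]
  [MulAction (GG n) Z]

noncomputable instance : TopologicalSpace (Pf hρ Z) :=
  inferInstanceAs (TopologicalSpace (Z × GG v))

noncomputable instance : MulAction (GG (Sum.elim n v)) (Pf hρ Z) where
  smul g x := (fstG n v g • x.1, ρ (fstG n v g) * x.2 * (sndG n v g)⁻¹)
  one_smul x := Prod.ext (one_smul (GG n) _) (by
    show ρ 1 * x.2 * 1⁻¹ = x.2
    rw [map_one, inv_one, one_mul, mul_one])
  mul_smul g h x := Prod.ext (mul_smul (fstG n v g) (fstG n v h) _) (by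
    show ρ (fstG n v (g * h)) * x.2 * (sndG n v (g * h))⁻¹ =
      ρ (fstG n v g) * (ρ (fstG n v h) * x.2 * (sndG n v h)⁻¹) * (sndG n v g)⁻¹
    simp only [map_mul, _root_.mul_inv_rev, mul_assoc])

theorem Pf.smul_fst (g : GG (Sum.elim n v)) (x : Pf hρ Z) : (g • x).1 = fstG n v g • x.1 := rfl

theorem Pf.smul_snd (g : GG (Sum.elim n v)) (x : Pf hρ Z) :
    (g • x).2 = ρ (fstG n v g) * x.2 * (sndG n v g)⁻¹ := rfl

instance [Nice Z] : Nice (Pf hρ Z) :=
  have := nice_GG v
  inferInstanceAs (Nice (Z × GG v))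

instance [ContinuousSMul (GG n) Z] : ContinuousSMul (GG (Sum.elim n v)) (Pf hρ Z) :=
  ⟨Continuous.prodMk (Z := GG (Sum.elim n v) × (Z × GG v))
    (((continuous_fstG n v).comp continuous_fst).smul (continuous_fst.comp continuous_snd))
    (((hρ.comp ((continuous_fstG n v).comp continuous_fst)).mul
      (continuous_snd.comp continuous_snd)).mul ((continuous_sndG n v).comp continuous_fst).inv)⟩

theorem bnd_Pf [Nice Z] [ContinuousSMul (GG n) Z] {d : ℕ} (hd : HasDim Z d) {D : ℤ} {h : ℤ → ℕ}
    (H : Bnd (GG n) Z D h) : Bnd (GG (Sum.elim n v)) (Pf hρ Z) (D + (∑ i, v i * v i : ℕ)) h := by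
  refine (bnd_ind (sumProd n v) (α := ρ.comp (fstG n v)) (hρ.comp (continuous_fstG n v))
    (fun g hg => (congrArg ρ hg).trans (map_one ρ)) (C := fun _ => 0) continuous_const
    (fun _ _ _ => (Matrix.zero_mul _).trans (Matrix.mul_zero _).symm)
    (fun _ => Finset.sum_congr rfl fun i _ => ?_) hd (p := fun y : Pf hρ Z => y.1)
    (κ := fun (y : Pf hρ Z) i => (y.2 i).1) (fun _ _ => rfl) (fun _ _ _ => rfl)
    (by exact IsEmbedding.id.prodMap isEmbedding_ggVal) (O := {x | ∀ i, (x.2 i).det ≠ 0})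
    (isOpen_dets fun i => (continuous_apply i).comp continuous_snd)
    (fun z x => ⟨?_, fun h => ⟨(z, fun i => GL0.toGL (x i)), rfl,
      funext fun i => GL0.toGL_val (h.2 i)⟩⟩)
    fun z => ⟨fun _ => 1, fun _ => 1, fun _ => ⟨Matrix.zero_mul _, Matrix.mul_one _⟩,
      fun x _ => forall_congr' fun i => by rw [Matrix.one_mul]⟩).1 H
  · rw [Pi.zero_apply, Jor.nul_zero, Fintype.card_fin]
  · rintro ⟨y, rfl, rfl⟩
    exact ⟨fun _ => Matrix.zero_mul _, fun i => GL0.det_gl_ne _⟩

end Vale.Agent.P291Z
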