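import Vale.Agent.P291Z.HE2.Mdl
import Vale.Agent.P291Z.HE2.NF

/-!
# Frames adapted to the Jordan type
-/

set_option linter.all false

namespace Vale.Agent.P291Z.Jor

open Set Function Topology Matrix Module

section one

variable {K : ℕ} {μ : Fin K → ℕ} {n β γ : Type} [Fintype n] [DecidableEq n] [Fintype β]
  [DecidableEq β] [Fintype γ] (F : Fr n (Bl μ) β) {B : Matrix β β ℂ}

theorem Fr.of_pow (hB : B.det ≠ 0) {j : ℕ} {x : Matrix n γ ℂ} (h : F.blk F (Jm μ) B ^ j * x = 0) :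
    F.ia * (F.pa * x) = x ∧ Jm μ ^ j * (F.pa * x) = 0 := by
  rw [Fr.blk_pow] at h
  have h1 := congrArg (F.pa * ·) h
  have h2 := congrArg ((B ^ j)⁻¹ * F.pb * ·) h
  simp only [← Matrix.mul_assoc, Fr.pa_blk, Matrix.mul_zero] at h1
  simp only [Matrix.mul_zero] at h2
  rw [← Matrix.mul_assoc, Matrix.mul_assoc _ F.pb, Fr.pb_blk, ← Matrix.mul_assoc,
    nonsing_inv_mul _ (by rw [det_pow]; exact (pow_ne_zero j hB).isUnit), Matrix.one_mul] at h2
  refine ⟨?_, (Matrix.mul_assoc _ _ _).symm.trans h1⟩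
  have := congrArg (· * x) F.sum
  simpa only [Matrix.add_mul, Matrix.mul_assoc, h2, Matrix.mul_zero, add_zero, Matrix.one_mul]
    using this

theorem Fr.of_prj {y : Matrix n γ ℂ} (h : (1 - F.blk F 0 1) * y = 0) : F.ib * (F.pb * y) = y := by
  rw [Matrix.sub_mul, Matrix.one_mul, sub_eq_zero] at h
  rw [← Matrix.mul_assoc]
  simpa only [Fr.blk, Matrix.mul_zero, Matrix.zero_mul, zero_add, Matrix.mul_one] using h.symm

theorem Fr.one_sub_blk : 1 - F.blk F 0 1 = F.blk F 1 0 := by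
  rw [sub_eq_iff_eq_add, ← Fr.blk_add, add_zero, zero_add, Fr.blk_one]

end one

variable {K : ℕ} {I : Type} [Fintype I] {v v' : I → ℕ} {m : JT I K}

/-- the vertex of a generator -/
abbrev vx : (I × Fin K) ⊕ I → I := Sum.elim Prod.fst id

variable (v v' m) in
/-- tuples of generators -/
abbrev Gn : Type := ∀ j, Matrix (Fin (v (vx j))) (Fin (Sum.elim m v' j)) ℂ

/-- the generators of the blocks -/
def Gn.a (x : Gn v v' m) (i : I) (k : Fin K) : Matrix (Fin (v i)) (Fin (m (i, k))) ℂ :=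
  x (Sum.inl (i, k))

/-- the basis of the complement -/
def Gn.b (x : Gn v v' m) (i : I) : Matrix (Fin (v i)) (Fin (v' i)) ℂ := x (Sum.inr i)

variable (K) in
/-- the equations for the generators -/
noncomputable def Cz (c : ℂ) (ξ : Sp.En v) : Sp.En fun j : (I × Fin K) ⊕ I => v (vx j)
  | Sum.inl p => ((ξ p.1 - c • 1) ^ (p.2.1 + 1) : Matrix (Fin (v p.1)) (Fin (v p.1)) ℂ)
  | Sum.inr i => (1 - Sp.prj {c}ᶜ ξ i : Matrix (Fin (v i)) (Fin (v i)) ℂ)

variable (F F' : Frs v m v') {c : ℂ} {B : Sp.En v'} {ξ : Sp.En v} {x : Gn v v' m}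

theorem Cz_iff : (∀ j, Cz K c ξ j * x j = 0) ↔
    (∀ i k, (ξ i - c • 1) ^ (k.1 + 1) * x.a i k = 0) ∧ ∀ i, (1 - Sp.prj {c}ᶜ ξ i) * x.b i = 0 :=
  Sum.forall.trans (and_congr Prod.forall Iff.rfl)

/-- the standard generators -/
noncomputable def x0 : Gn v v' m
  | Sum.inl p => (F p.1).ia * gen (fun k => m (p.1, k)) p.2
  | Sum.inr i => (F i).ib

/-- the top blocks -/
noncomputable def t0 : ∀ j, Matrix (Fin (Sum.elim m v' j)) (Fin (v (vx j))) ℂ
  | Sum.inl p => (gen (fun k => m (p.1, k)) p.2)ᵀ * (F p.1).pa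
  | Sum.inr i => (F i).pb

/-- the frame given by a tuple of generators -/
noncomputable def phi (c : ℂ) (ξ : Sp.En v) (x : Gn v v' m) : Sp.En v := fun i =>
  ph (ξ i - c • 1) (x.a i) * (F i).pa + x.b i * (F i).pb

theorem conj_sub {g g' : Sp.En v} (e : g * g' = 1) (c : ℂ) (ξ : Sp.En v) (i : I) :
    g i * (ξ i - c • 1) = ((g * ξ * g') i - c • 1) * g i := by
  have : g' i * g i = 1 := mul_eq_one_comm.1 (congrFun e i)
  rw [Pi.mul_apply, Pi.mul_apply, mul_sub, sub_mul, mul_assoc, this, mul_one, mul_smul_comm,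
    smul_mul_assoc, mul_one, one_mul]

theorem Cz_conj {g g' : Sp.En v} (e : g * g' = 1) (c : ℂ) (ξ : Sp.En v) (j : (I × Fin K) ⊕ I) :
    Cz K c (g * ξ * g') j * g (vx j) = g (vx j) * Cz K c ξ j := by
  rcases j with p | i
  · exact (SemiconjBy.pow_right (conj_sub e c ξ p.1) _).symm
  · have : g' i * g i = 1 := mul_eq_one_comm.1 (congrFun e i)
    show (1 - Sp.prj {c}ᶜ (g * ξ * g') i) * g i = g i * (1 - Sp.prj {c}ᶜ ξ i)
    rw [Sp.prj_conj _ _ e, Pi.mul_apply, Pi.mul_apply, sub_mul, mul_sub, mul_assoc, this, mul_one,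
      mul_one, one_mul]

theorem Cz_x0 (h : c ∉ Sp.spec B) : ∀ j, Cz K c (mdl F c B) j * x0 F j = 0 := by
  refine Cz_iff.2 ⟨fun i k => ?_, fun i => ?_⟩
  · show _ * ((F i).ia * gen (fun k => m (i, k)) k) = 0
    rw [mdl_sub, Fr.blk_pow, ← Matrix.mul_assoc, Fr.blk_ia, Matrix.mul_assoc, Jm_pow_gen,
      Matrix.mul_zero]
  · show _ * (F i).ib = 0
    rw [prj_mdl F h, Fr.one_sub_blk, Fr.blk_ib, Matrix.mul_zero]

theorem t0_x0 (j : (I × Fin K) ⊕ I) : t0 F j * x0 F j = 1 := by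
  rcases j with ⟨i, k⟩ | i
  · show (gen (fun k => m (i, k)) k)ᵀ * (F i).pa * ((F i).ia * gen (fun k => m (i, k)) k) =
      (1 : Matrix (Fin (m (i, k))) (Fin (m (i, k))) ℂ)
    rw [Matrix.mul_assoc, ← Matrix.mul_assoc (F i).pa, (F i).aa, Matrix.one_mul]
    exact gen_gen _
  · exact (F i).bb

theorem nul_Cz (h : c ∉ Sp.spec B) :
    ∑ j, nul (Cz K c (mdl F c B) j) * Sum.elim m v' j = m.zz + ∑ i, v' i * v' i := by
  rw [Fintype.sum_sum_type, Fintype.sum_prod_type]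
  refine congrArg₂ (· + ·) (Finset.sum_congr rfl fun i _ => Finset.sum_congr rfl fun k _ => ?_)
    (Finset.sum_congr rfl fun i _ => ?_)
  · refine (congrArg (· * m (i, k)) (JS_iff.1 (JS_mdl F h) i (k.1 + 1))).trans ?_
    rw [ka, Finset.sum_mul]
    exact Finset.sum_congr rfl fun l _ => by ring
  · refine congrArg (· * v' i) (?_ : nul (1 - Sp.prj {c}ᶜ (mdl F c B) i) = v' i)
    rw [prj_mdl F h, Fr.one_sub_blk, Fr.nul_blk, nul_zero, nul_eq_zero.2 (by simp),
      Fintype.card_fin, zero_add]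

theorem phi_conj {g g' : Sp.En v} (e : g * g' = 1) (c : ℂ) (ξ : Sp.En v) (x : Gn v v' m) :
    phi F c (g * ξ * g') (fun j => g (vx j) * x j) = g * phi F c ξ x := funext fun i => by
  show ph _ (fun k => g i * x.a i k) * (F i).pa + g i * x.b i * (F i).pb = g i * phi F c ξ x i
  rw [phi, mul_add, ← Matrix.mul_assoc, ← ph_map (conj_sub e c ξ i), ← Matrix.mul_assoc]

theorem phi_x0 (c : ℂ) (ξ : Sp.En v) (x : Gn v v' m) (j : (I × Fin K) ⊕ I) :
    phi F c ξ x (vx j) * x0 F j = x j := by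
  rcases j with ⟨i, k⟩ | i
  · show phi F c ξ x i * ((F i).ia * gen (fun k => m (i, k)) k) = x.a i k
    rw [← Matrix.mul_assoc, phi, Matrix.add_mul, Matrix.mul_assoc _ (F i).pa,
      Matrix.mul_assoc _ (F i).pb, (F i).aa, (F i).ba, Matrix.mul_zero, add_zero, Matrix.mul_one,
      ph_gen]
  · show phi F c ξ x i * (F i).ib = x.b i
    rw [phi, Matrix.add_mul, Matrix.mul_assoc, Matrix.mul_assoc, (F i).ab, (F i).bb,
      Matrix.mul_zero, zero_add, Matrix.mul_one]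

theorem phi_mdl_x0 (c : ℂ) (B : Sp.En v') : phi F c (mdl F c B) (x0 F) = 1 := funext fun i => by
  have := ph_map (Fr.blk_ia (F i) (F i) (Jm _) (B i - c • 1)).symm (gen fun k => m (i, k))
  rw [ph_Jm, Matrix.mul_one, ← mdl_sub] at this
  exact (congrArg (· * (F i).pa + (F i).ib * (F i).pb) this).trans (F i).sum

variable (h : c ∉ Sp.spec B) (hx : ∀ j, Cz K c (mdl F' c B) j * x j = 0)
include h hx

theorem of_Cz (i : I) (k : Fin K) : (F' i).ia * ((F' i).pa * x.a i k) = x.a i k ∧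
    Jm (fun k => m (i, k)) ^ (k.1 + 1) * ((F' i).pa * x.a i k) = 0 :=
  (F' i).of_pow (det_ne_of_spec h i) (mdl_sub F' c B i ▸ (Cz_iff.1 hx).1 i k)

theorem phi_mdl (i : I) : phi F c (mdl F' c B) x i =
    (F' i).blk (F i) (ph (Jm _) fun k => (F' i).pa * x.a i k) ((F' i).pb * x.b i) := by
  have := ph_map (Fr.blk_ia (F' i) (F' i) (Jm _) (B i - c • 1)).symm fun k => (F' i).pa * x.a i k
  rw [funext fun k => (of_Cz F' h hx i k).1, ← mdl_sub] at this
  rw [phi, Fr.blk, ← this, (F' i).of_prj (prj_mdl F' h i ▸ (Cz_iff.1 hx).2 i)]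

theorem det_phi : (∀ i, (phi F c (mdl F' c B) x i).det ≠ 0) ↔ ∀ j, (t0 F' j * x j).det ≠ 0 := by
  simp only [phi_mdl F F' h hx, Fr.det_blk_ne_zero, det_ph_Jm fun k => (of_Cz F' h hx _ k).2,
    forall_and, ← Matrix.mul_assoc]
  exact ⟨fun H => Sum.forall.2 ⟨fun p => H.1 p.1 p.2, H.2⟩,
    fun H => ⟨fun i k => H (Sum.inl (i, k)), fun i => H (Sum.inr i)⟩⟩

theorem exists_slice (hd : ∀ i, (phi F c (mdl F' c B) x i).det ≠ 0) : ∃ B' : Sp.En v',
    Sp.spec B' = Sp.spec B ∧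
      mdl F' c B * phi F c (mdl F' c B) x = phi F c (mdl F' c B) x * mdl F c B' := by
  let b : Sp.En v' := fun i => (F' i).pb * x.b i
  have hb : ∀ i, IsUnit (b i).det := fun i => Ne.isUnit ((det_phi F F' h hx).1 hd (Sum.inr i))
  refine ⟨(fun i => (b i)⁻¹) * B * b, Sp.spec_conj B (funext fun i => nonsing_inv_mul _ (hb i)),
    funext fun i => ?_⟩
  rw [Pi.mul_apply, Pi.mul_apply, phi_mdl F F' h hx, mdl, mdl, Fr.blk_mul, Fr.blk_mul,
    Matrix.add_mul, Matrix.mul_add, mul_ph fun k => (of_Cz F' h hx i k).2, Matrix.smul_mul,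
    Matrix.mul_smul, Matrix.one_mul, Matrix.mul_one]
  refine congrArg _ ?_
  show B i * b i = b i * ((b i)⁻¹ * B i * b i)
  rw [Matrix.mul_assoc (b i)⁻¹, mul_nonsing_inv_cancel_left _ _ (hb i)]

omit h hx

variable {T : Type} [TopologicalSpace T]

theorem continuous_Cz (hv : ∀ i, v i = m.dv i + v' i) {ξ : T → Sp.En v} (hξ : Continuous ξ)
    (h : ∀ t, JS c m (ξ t)) : Continuous fun t => Cz K c (ξ t) := continuous_pi fun j => by
  rcases j with p | i
  · exact (continuous_jpow c p.1 _).comp hξ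
  · refine continuous_const.sub ((continuous_apply i).comp
      (Sp.continuous_prj isOpen_compl_singleton (n := ∑ i, v' i) hξ fun t => ?_))
    obtain ⟨F, B, hB, e⟩ := exists_mdl (h t) hv
    rw [e, tot_mdl F hB]

theorem continuous_phi {ξ : T → Sp.En v} (hξ : Continuous ξ) {x : T → Gn v v' m}
    (hx : Continuous x) (i : I) : Continuous fun t => phi F c (ξ t) (x t) i :=
  ((continuous_ph (((continuous_apply i).comp hξ).sub continuous_const) fun k =>
    (continuous_apply (Sum.inl (i, k))).comp hx).matrix_mul continuous_const).add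
    (((continuous_apply (Sum.inr i)).comp hx).matrix_mul continuous_const)

end Vale.Agent.P291Z.Jor
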