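import Vale.Agent.P291Z.HE2.JmA
import Vale.Agent.P291Z.HigE0
import Vale.Agent.P291Z.GL1

/-!
# The slice of a Jordan stratum
-/

set_option linter.all false

namespace Vale.Agent.P291Z

open Set Function Topology Matrix Four Jor Flav

variable {I E : Type} {Q : Quiv I E} {Φ : Type} [Fintype Φ] [Fintype I] [Fintype E] {K : ℕ}
  {m : JT I K} {v' : I → ℕ}

variable (Q Φ m v') in
/-- the dimensions of the group that preserves the slice -/
abbrev nH : (I ⊕ Φ) ⊕ I × Fin K → ℕ := Sum.elim ((Q.wv v').nn Φ) m

variable (F : Frs Q.v m v')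

/-- the action on the model of the part with the given eigenvalue -/
noncomputable def levH (h : GG (nH Q Φ m v')) (i : I) :
    Matrix (Bl fun k => m (i, k)) (Bl fun k => m (i, k)) ℂ :=
  lev fun k => (sndG _ m h (i, k)).1

theorem levH_one (i : I) : levH (1 : GG (nH Q Φ m v')) i = 1 := lev_one

theorem levH_mul (g h : GG (nH Q Φ m v')) (i : I) : levH (g * h) i = levH g i * levH h i :=
  lev_mul _ _

theorem levH_Jm (h : GG (nH Q Φ m v')) (i : I) : levH h i * Jm _ = Jm _ * levH h i := lev_Jm _

theorem continuous_levH (i : I) : Continuous fun h : GG (nH Q Φ m v') => levH h i :=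
  continuous_lev fun k => Units.continuous_val.comp
    ((continuous_apply (i, k)).comp (continuous_sndG _ m))

/-- the block matrices of the group that preserves the slice -/
noncomputable def rhoM (i : I) : GG (nH Q Φ m v') →* Matrix (Fin (Q.v i)) (Fin (Q.v i)) ℂ where
  toFun h := (F i).blk (F i) (levH h i) (ga (Q.wv v') Φ (fstG _ m h) i)
  map_one' := by rw [levH_one, map_one, map_one]; exact Fr.blk_one _
  map_mul' g h := by rw [levH_mul, map_mul, map_mul, Fr.blk_mul]; rfl

theorem continuous_rhoM (i : I) : Continuous (rhoM (Φ := Φ) F i) :=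
  Fr.continuous_blk _ _ (continuous_levH i)
    ((continuous_apply i).comp (Four.continuous_ga.comp (continuous_fstG _ m)))

/-- the gauge part of the embedding -/
noncomputable def rhoG : GG (nH Q Φ m v') →* GG Q.v where
  toFun h i := (rhoM F i).toHomUnits h
  map_one' := funext fun _ => map_one _
  map_mul' _ _ := funext fun _ => map_mul _ _ _

theorem continuous_rhoG : Continuous (rhoG (Φ := Φ) F) :=
  continuous_pi fun i => Units.continuous_iff.2
    ⟨continuous_rhoM F i, (continuous_rhoM F i).comp continuous_inv⟩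

/-- the embedding of the group that preserves the slice -/
noncomputable def rho : GG (nH Q Φ m v') →* GG (Q.nn Φ) where
  toFun h j := match j with
    | Sum.inl i => rhoG F h i
    | Sum.inr a => h (Sum.inl (Sum.inr a))
  map_one' := funext fun j => by
    cases j
    exacts [congrFun (map_one (rhoG (Φ := Φ) F)) _, rfl]
  map_mul' g h := funext fun j => by
    cases j
    exacts [congrFun (map_mul (rhoG F) g h) _, rfl]

theorem continuous_rho : Continuous (rho (Φ := Φ) F) :=
  continuous_pi fun j => by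
    rcases j with i | a
    exacts [(continuous_apply i).comp (continuous_rhoG F), continuous_apply _]

theorem ga_rho (h : GG (nH Q Φ m v')) (i : I) :
    ga Q Φ (rho F h) i = (F i).blk (F i) (levH h i) (ga (Q.wv v') Φ (fstG _ m h) i) := rfl

theorem fl_rho (h : GG (nH Q Φ m v')) : fl Q Φ (rho F h) = fl (Q.wv v') Φ (fstG _ m h) := rfl

theorem mdl_conj (h : GG (nH Q Φ m v')) (c : ℂ) (B : Sp.En v') :
    ga Q Φ (rho F h) * mdl F c B * ga Q Φ (rho F h)⁻¹ =
      mdl F c (ga (Q.wv v') Φ (fstG _ m h) * B * ga (Q.wv v') Φ (fstG _ m h)⁻¹) :=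
  funext fun i => by
    rw [← map_inv, ← map_inv, Pi.mul_apply, Pi.mul_apply, ga_rho, ga_rho, mdl, Fr.blk_mul,
      Fr.blk_mul, Matrix.mul_add, levH_Jm, Matrix.mul_smul, Matrix.add_mul, Matrix.smul_mul,
      Matrix.mul_one, Matrix.mul_assoc, ← levH_mul, mul_inv_cancel, levH_one, Matrix.mul_one]
    rfl

variable (A : Flav Q Φ) (c : ℂ) (K' : Set ℂ)

/-- the slice: pairs whose second component is in normal form -/
def Sl : Type :=
  {x : A.NN × Ad Q Φ // Q.lie x.2.en x.1 = 0 ∧ ∃ B : Sp.En v', Sp.spec B ⊆ K' ∧ x.2.en = mdl F c B}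

noncomputable instance : TopologicalSpace (Sl F A c K') := instTopologicalSpaceSubtype

noncomputable instance : MulAction (GG (nH Q Φ m v')) (Sl F A c K') where
  smul h x := ⟨rho F h • x.1, (lie_conj (rho F h) x.1.2.en x.1.1).trans (by rw [x.2.1, map_zero]),
    by
      obtain ⟨B, hB, e⟩ := x.2.2
      exact ⟨_, (Sp.spec_conj B (KN.ga_inv (Q := Q.wv v') (fstG _ m h))).subset.trans hB,
        (congrArg (ga Q Φ (rho F h) * · * ga Q Φ (rho F h)⁻¹) e).trans (mdl_conj F h c B)⟩⟩
  one_smul x := Subtype.ext ((congrArg (· • x.1) (map_one (rho F))).trans (one_smul _ _))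
  mul_smul g h x :=
    Subtype.ext ((congrArg (· • x.1) (map_mul (rho F) g h)).trans (mul_smul _ _ _))

variable {F A c K'}

theorem Sl.smul_val (h : GG (nH Q Φ m v')) (x : Sl F A c K') : (h • x).1 = rho F h • x.1 := rfl

theorem Sl.isEmbedding_val : IsEmbedding (Subtype.val : Sl F A c K' → A.NN × Ad Q Φ) :=
  IsEmbedding.subtypeVal

instance : ContinuousSMul (GG (nH Q Φ m v')) (Sl F A c K') :=
  ⟨Sl.isEmbedding_val.continuous_iff.2 (((continuous_rho F).comp continuous_fst).smul
    (Sl.isEmbedding_val.continuous.comp continuous_snd))⟩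

theorem pb_mdl_ib (B : Sp.En v') (i : I) : (F i).pb * mdl F c B i * (F i).ib = B i := by
  rw [mdl, Fr.pb_blk, Matrix.mul_assoc, (F i).bb, Matrix.mul_one]

theorem continuous_mdl : Continuous (mdl F c) :=
  continuous_pi fun i => Fr.continuous_blk _ _ continuous_const (continuous_apply i)

theorem nice_Sl (hK : IsLocallyClosed K') : Nice (Sl F A c K') := by
  have hc : Continuous fun (x : A.NN × Ad Q Φ) (i : I) => (F i).pb * x.2.en i * (F i).ib :=
    continuous_pi fun i => (continuous_const.matrix_mul
      ((continuous_apply i).comp (continuous_en.comp continuous_snd))).matrix_mul continuous_const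
  obtain ⟨O, C, hO, hC, rfl⟩ := hK
  refine nice_of_lc (S := {x : A.NN × Ad Q Φ | _}) ⟨_, _, (Sp.isOpen_spec_subset hO).preimage hc,
    (isClosed_lie.inter ((Sp.isClosed_spec_subset hC).preimage hc)).inter
      (isClosed_eq (continuous_en.comp continuous_snd) ((continuous_mdl (c := c)).comp hc)),
    Set.ext fun x => ⟨?_, fun h => ⟨h.2.1.1, _, subset_inter h.1 h.2.1.2, h.2.2⟩⟩⟩
  rintro ⟨h, B, hB, e⟩
  obtain rfl : (fun i => (F i).pb * x.2.en i * (F i).ib) = B :=
    funext fun i => by rw [e, pb_mdl_ib]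
  exact ⟨hB.trans inter_subset_left, ⟨h, hB.trans inter_subset_right⟩, e⟩

end Vale.Agent.P291Z
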