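import Vale.Agent.P291Z.HE2.Sl
import Vale.Agent.P291Z.HE2.Phi
import Vale.Agent.P291Z.HE2.Pf

/-!
# From the slice to the stratum
-/

set_option linter.all false

namespace Vale.Agent.P291Z

open Set Function Topology Matrix Four Jor Flav

variable {I E : Type} {Q : Quiv I E} {Φ : Type} [Fintype Φ] [Fintype I] [Fintype E] {K : ℕ}
  {m : JT I K} {v' : I → ℕ} {F : Frs Q.v m v'} {A : Flav Q Φ} {c : ℂ} {K₁ K' : Set ℂ}

theorem hasDim_amb (A : Flav Q Φ) : ∃ d, HasDim (A.NN × Ad Q Φ) d :=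
  ⟨_, Euc.hasDim (((Four.isRep_NN (A := A)).prod isRep_Ad).lin.elim fun e => ⟨e.toHomeomorph⟩)⟩

theorem Sl.mem_Str (hc : c ∉ K') (hK : ∀ t, t ∈ K₁ ↔ t = c ∨ t ∈ K') (x : Sl F A c K') :
    x.1 ∈ Str A K₁ c m := by
  obtain ⟨B, hB, e⟩ := x.2.2
  refine ⟨⟨x.2.1, ?_⟩, ?_⟩ <;> rw [e]
  · exact fun t ht => (hK t).2 ((spec_mdl_subset F c B ht).imp_right fun h => hB h)
  · exact JS_mdl F fun h => hc (hB h)

/-- the gauge group inside the product with the flavour torus -/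
noncomputable abbrev inG (Q : Quiv I E) (Φ : Type) : GG Q.v →* GG (Q.nn Φ) := inlG Q.v fun _ => 1

theorem rhoG_x0 (h : GG (nH Q Φ m v')) {g : GG (Sum.elim m v')}
    (h1 : ∀ p, g (Sum.inl p) = h (Sum.inr p)) (h2 : ∀ i, g (Sum.inr i) = h (Sum.inl (Sum.inl i)))
    (j : (I × Fin K) ⊕ I) : (rhoG F h (vx j)).1 * x0 F j = x0 F j * (g j).1 := by
  rcases j with ⟨i, k⟩ | i
  · rw [h1]
    show ga Q Φ (rho F h) i * ((F i).ia * gen (fun k => m (i, k)) k) =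
      (F i).ia * gen (fun k => m (i, k)) k * (sndG _ m h (i, k)).1
    rw [ga_rho, ← Matrix.mul_assoc, Fr.blk_ia, Matrix.mul_assoc, Matrix.mul_assoc]
    exact congrArg _ (lev_gen _ k)
  · rw [h2]
    exact Fr.blk_ib _ _ _ _

theorem exists_split_HE : ∃ S : SysProd (GG (Sum.elim (nH Q Φ m v') Q.v)) (GG (Q.nn Φ))
    (GG (Sum.elim m v')), (∀ g i, S.π₁ g (Sum.inl i) = g (Sum.inr i)) ∧
      (∀ g a, S.π₁ g (Sum.inr a) = g (Sum.inl (Sum.inl (Sum.inr a)))) ∧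
      (∀ g p, S.π₂ g (Sum.inl p) = g (Sum.inl (Sum.inr p))) ∧
      ∀ g i, S.π₂ g (Sum.inr i) = g (Sum.inl (Sum.inl (Sum.inl i))) := by
  obtain ⟨S, h1, h2⟩ := exists_splitProd (Sum.elim (nH Q Φ m v') Q.v) (Q.nn Φ) (Sum.elim m v')
    (Sum.elim Sum.inr fun a => Sum.inl (Sum.inl (Sum.inr a)))
    (Sum.elim (fun p => Sum.inl (Sum.inr p)) fun i => Sum.inl (Sum.inl (Sum.inl i)))
    ⟨by rintro ((a | a) | (a | a)) ((b | b) | (b | b)) <;> simp, by
      rintro (((a | a) | a) | a)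
      exacts [⟨Sum.inr (Sum.inr a), rfl⟩, ⟨Sum.inl (Sum.inr a), rfl⟩, ⟨Sum.inr (Sum.inl a), rfl⟩,
        ⟨Sum.inl (Sum.inl a), rfl⟩]⟩ (by rintro (a | a) <;> rfl) (by rintro (a | a) <;> rfl)
  exact ⟨S, fun g i => eq_of_heq (h1 g (Sum.inl i)), fun g a => eq_of_heq (h1 g (Sum.inr a)),
    fun g p => eq_of_heq (h2 g (Sum.inl p)), fun g i => eq_of_heq (h2 g (Sum.inr i))⟩

theorem phi_frame (y : Sl F A c K' × GG Q.v) :
    phi F c (inG Q Φ y.2⁻¹ • y.1.1).2.en (fun j => (y.2⁻¹ (vx j)).1 * x0 F j) =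
      fun i => (y.2⁻¹ i).1 := by
  obtain ⟨B, -, e⟩ := y.1.2.2
  refine (phi_conj F (KN.ga_inv (inG Q Φ y.2⁻¹)) c y.1.1.2.en (x0 F)).trans ?_
  rw [e, phi_mdl_x0, mul_one]
  rfl

theorem bnd_Str_of_Sl (hK₁ : IsLocallyClosed K₁) (hK' : IsLocallyClosed K') (hc : c ∉ K')
    (hK : ∀ t, t ∈ K₁ ↔ t = c ∨ t ∈ K') (hv : ∀ i, Q.v i = m.dv i + v' i) {D : ℤ} {h : ℤ → ℕ}
    (H : Bnd (GG (nH Q Φ m v')) (Sl F A c K') D h) :
    Bnd (GG (Q.nn Φ)) (Str A K₁ c m)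
      (D + (∑ i, Q.v i * Q.v i : ℕ) - (m.zz + ∑ i, v' i * v' i : ℕ)) h := by
  have := nice_Sl (F := F) (A := A) (c := c) hK'
  have := nice_Str A hK₁ c m
  obtain ⟨d, hd⟩ := hasDim_amb A
  have H' := bnd_Pf (hρ := continuous_rhoG F) (Z := Sl F A c K')
    (hd.of_injective Sl.isEmbedding_val.continuous Sl.isEmbedding_val.injective) H
  obtain ⟨S, s1, s2, s3, s4⟩ := exists_split_HE (Q := Q) (Φ := Φ) (m := m) (v' := v')
  have hen : Continuous fun z : Str A K₁ c m => z.1.2.en :=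
    continuous_en.comp continuous_subtype_val.snd
  have hφ : ∀ i, Continuous fun z : Str A K₁ c m × Gn Q.v v' m => phi F c z.1.1.2.en z.2 i :=
    continuous_phi F (hen.comp continuous_fst) continuous_snd
  let P := Pf (continuous_rhoG (Φ := Φ) F) (Sl F A c K')
  let p : P → Str A K₁ c m := fun y => inG Q Φ y.2⁻¹ • ⟨y.1.1, y.1.mem_Str hc hK⟩
  let κ : P → Gn Q.v v' m := fun y j => (y.2⁻¹ (vx j)).1 * x0 F j
  have hpκ : ∀ y i, phi F c (p y).1.2.en (κ y) i = (y.2⁻¹ i).1 := fun y =>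
    congrFun (phi_frame y)
  refine (bnd_ind S (n := fun j => Q.v (vx j))
    (α := { toFun := fun g j => g (Sum.inr (vx j)), map_one' := rfl, map_mul' := fun _ _ => rfl })
    (continuous_pi fun j => continuous_apply _)
    (fun g hg => funext fun j => (s1 g _).symm.trans (congrFun hg _))
    (C := fun z : Str A K₁ c m => Cz K c z.1.2.en) (continuous_Cz hv hen fun z => z.2.2)
    (fun g z j => ?_) (r := m.zz + ∑ i, v' i * v' i) (fun z => ?_)
    (hd.of_injective continuous_subtype_val Subtype.val_injective) (p := p) (κ := κ)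
    (fun g y => Subtype.ext ?_) (fun g y j => ?_) ?_
    (O := {z | ∀ i, (phi F c z.1.1.2.en z.2 i).det ≠ 0}) (isOpen_dets hφ)
    (fun z x => ⟨?_, fun hx => ?_⟩) fun z => ?_).2 (by rwa [sub_add_cancel])
  · have := Cz_conj (KN.ga_inv (S.π₁ g)) c z.1.2.en j
    rwa [show ga Q Φ (S.π₁ g) (vx j) = (g (Sum.inr (vx j))).1 from congrArg Units.val (s1 g _)]
      at this
  · obtain ⟨F', B, hB, e⟩ := exists_mdl z.2.2 hv
    exact e ▸ nul_Cz F' hB
  · refine (mul_smul _ _ _).symm.trans (Eq.trans (congrArg (· • y.1.1) ?_) (mul_smul _ _ _))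
    funext j
    rcases j with i | a
    · refine Eq.trans ?_ (congrArg (fun u : GL (Fin (Q.v i)) ℂ => u * (y.2 i)⁻¹) (s1 g i).symm)
      show (rhoG F (fstG _ _ g) i * y.2 i * (sndG _ Q.v g i)⁻¹)⁻¹ * rhoG F (fstG _ _ g) i =
        sndG _ Q.v g i * (y.2 i)⁻¹
      group
    · exact (one_mul _).trans ((s2 g a).symm.trans (mul_one _).symm)
  · have := rhoG_x0 (F := F) (fstG _ _ g⁻¹) (g := S.π₂ g⁻¹) (s3 _) (s4 _) j
    rw [map_inv, map_inv, map_inv] at this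
    show ((rhoG F (fstG _ _ g) * y.2 * (sndG _ _ g)⁻¹)⁻¹ (vx j)).1 * x0 F j =
      (sndG _ Q.v g (vx j)).1 * ((y.2⁻¹ (vx j)).1 * x0 F j) * ((S.π₂ g)⁻¹ j).1
    rw [_root_.mul_inv_rev, _root_.mul_inv_rev, inv_inv, Pi.mul_apply, Pi.mul_apply, Units.val_mul,
      Units.val_mul, Matrix.mul_assoc, Matrix.mul_assoc, this]
    simp only [Matrix.mul_assoc]
  · let O := {z : Str A K₁ c m × Gn Q.v v' m | ∀ i, (phi F c z.1.1.2.en z.2 i).det ≠ 0}
    let u : O → GG Q.v := fun z i => GL0.toGL (phi F c z.1.1.1.2.en z.1.2 i)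
    have hu : Continuous u := continuous_pi fun i =>
      GL0.continuous_toGL ((hφ i).comp continuous_subtype_val) fun z => z.2 i
    have h2 : Continuous fun y : P => y.2⁻¹ := continuous_snd.inv
    have hp : Continuous p := ((continuous_inlG Q.v fun _ : Φ => 1).comp h2).smul
      ((Sl.isEmbedding_val.continuous.comp continuous_fst).subtype_mk _)
    have hκ : Continuous κ := continuous_pi fun j =>
      (Units.continuous_val.comp ((continuous_apply (vx j)).comp h2)).matrix_mul continuous_const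
    have hO : ∀ y, (p y, κ y) ∈ O := fun y i => (hpκ y i).symm ▸ GL0.det_gl_ne _
    refine IsEmbedding.subtypeVal.comp (IsEmbedding.of_comp (f := fun y => (⟨_, hO y⟩ : O))
      (g := fun z => (inG Q Φ (u z)⁻¹ • z.1.1.1, (u z)⁻¹))
      ((hp.prodMk hκ).subtype_mk _)
      (by exact (((continuous_inlG Q.v fun _ : Φ => 1).comp hu.inv).smul
        (continuous_subtype_val.comp continuous_subtype_val.fst)).prodMk hu.inv) ?_)
    refine Eq.subst (motive := IsEmbedding) (funext fun y => ?_)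
      (Sl.isEmbedding_val.prodMap IsEmbedding.id)
    have : u ⟨_, hO y⟩ = y.2⁻¹ := funext fun i => Units.ext ((GL0.toGL_val (hO y i)).trans (hpκ y i))
    show (y.1.1, y.2) = (inG Q Φ (u ⟨_, hO y⟩)⁻¹ • inG Q Φ y.2⁻¹ • y.1.1, (u ⟨_, hO y⟩)⁻¹)
    rw [this, inv_inv, map_inv, smul_inv_smul]
  · rintro ⟨y, rfl, rfl⟩
    refine ⟨fun j => ?_, fun i => (hpκ y i).symm ▸ GL0.det_gl_ne _⟩
    obtain ⟨B, hB, e⟩ := y.1.2.2
    refine (Matrix.mul_assoc _ _ _).symm.trans ((congrArg (· * x0 F j)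
      (Cz_conj (KN.ga_inv (inG Q Φ y.2⁻¹)) c y.1.1.2.en j)).trans ?_)
    rw [Matrix.mul_assoc, e, Cz_x0 F fun h => hc (hB h), Matrix.mul_zero]
  · obtain ⟨F', B, hB, e⟩ := exists_mdl z.2.2 hv
    obtain ⟨B', hB', e'⟩ := exists_slice F F' hB (e ▸ hx.1) (e ▸ hx.2)
    rw [← e] at e'
    let u : GG Q.v := fun i => GL0.toGL (phi F c z.1.2.en x i)
    have hu : ga Q Φ (inG Q Φ u) = phi F c z.1.2.en x := funext fun i => GL0.toGL_val (hx.2 i)
    refine ⟨(⟨inG Q Φ u⁻¹ • z.1, ((Str A K₁ c m).smul_mem _ z.2).1.1, B', fun t ht => ?_, ?_⟩, u⁻¹),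
      Subtype.ext ?_, funext fun j => ?_⟩
    · rw [hB'] at ht
      exact ((hK t).1 (z.2.1.2 (e ▸ spec_subset_mdl F' c B ht))).resolve_left
        fun h => hB (h ▸ ht)
    · show ga Q Φ (inG Q Φ u⁻¹) * z.1.2.en * ga Q Φ (inG Q Φ u⁻¹)⁻¹ = _
      rw [map_inv, inv_inv, mul_assoc, hu, e', ← hu, ← mul_assoc, ← map_mul, inv_mul_cancel,
        map_one, one_mul]
    · show inG Q Φ u⁻¹⁻¹ • inG Q Φ u⁻¹ • z.1 = z.1
      rw [inv_inv, map_inv, smul_inv_smul]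
    · show (u⁻¹⁻¹ (vx j)).1 * x0 F j = x j
      rw [inv_inv]
      exact (congrArg (· * x0 F j) (congrFun hu (vx j))).trans (phi_x0 F c _ x j)
  · obtain ⟨F', B, hB, e⟩ := exists_mdl z.2.2 hv
    refine ⟨t0 F', x0 F', fun j => ⟨e ▸ Cz_x0 F' hB j, t0_x0 F' j⟩, fun x hx => ?_⟩
    rw [e] at hx
    exact (e ▸ Iff.rfl : _ ↔ _).trans (det_phi F F' hB hx)

end Vale.Agent.P291Z
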