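import Vale.Agent.P291Z.HE2.Sl
import Vale.Agent.P291Z.HE2.JmB
import Vale.Agent.P291Z.WtA
import Vale.Agent.P291Z.Fcl
import Vale.Agent.P291Z.GLSys

/-!
# The homology of the slice
-/

set_option linter.all false

namespace Vale.Agent.P291Z

open Set Function Topology Matrix Four Jor Flav

variable {I E : Type} {Q : Quiv I E} {Φ : Type} [Fintype Φ] [Fintype I] [Fintype E] {K : ℕ}
  {m : JT I K} {v' : I → ℕ}

namespace SlB

variable (Q) in
/-- representations of the framed quiver on spaces with given bases -/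
abbrev NT (X : I → Type) : Type :=
  (∀ e, Matrix (X (Q.t e)) (X (Q.s e)) ℂ) × ∀ i, Matrix (Fin (Q.w i)) (X i) ℂ

variable {X Y Z : I → Type} [∀ i, Fintype (X i)] [∀ i, Fintype (Y i)] [∀ i, Fintype (Z i)]

/-- the two-sided action -/
def tw (a : ∀ i, Matrix (Y i) (X i) ℂ) (b : ∀ i, Matrix (X i) (Y i) ℂ) : NT Q X →ₗ[ℂ] NT Q Y where
  toFun x := (fun e => a (Q.t e) * x.1 e * b (Q.s e), fun i => x.2 i * b i)
  map_add' x y := by ext <;> simp [Matrix.mul_add, Matrix.add_mul]
  map_smul' c x := by ext <;> simp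

/-- the infinitesimal action -/
def lt (ξ : ∀ i, Matrix (X i) (X i) ℂ) : NT Q X →ₗ[ℂ] NT Q X where
  toFun x := (fun e => ξ (Q.t e) * x.1 e - x.1 e * ξ (Q.s e), fun i => -(x.2 i * ξ i))
  map_add' x y := by ext <;> simp [Matrix.mul_add, Matrix.add_mul] <;> ring
  map_smul' c x := by ext <;> simp [mul_sub]

/-- scaling of the summands -/
def sc (μ : Q.qd.Fl → ℂ) : NT Q X →ₗ[ℂ] NT Q X where
  toFun x := (fun e => μ (Sum.inl e) • x.1 e,
    fun i => Matrix.of fun l r => μ (Sum.inr ⟨i, l⟩) * x.2 i l r)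
  map_add' x y := by ext <;> simp [mul_add]
  map_smul' a x := by ext <;> simp [mul_left_comm]

theorem tw_tw (a : ∀ i, Matrix (Z i) (Y i) ℂ) (b : ∀ i, Matrix (Y i) (Z i) ℂ)
    (a' : ∀ i, Matrix (Y i) (X i) ℂ) (b' : ∀ i, Matrix (X i) (Y i) ℂ) (x : NT Q X) :
    tw a b (tw a' b' x) = tw (fun i => a i * a' i) (fun i => b' i * b i) x :=
  Prod.ext (funext fun e => by simp [tw, Matrix.mul_assoc])
    (funext fun i => by simp [tw, Matrix.mul_assoc])

theorem tw_one [∀ i, DecidableEq (X i)] (x : NT Q X) : tw (fun _ => 1) (fun _ => 1) x = x :=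
  Prod.ext (funext fun e => by simp [tw]) (funext fun i => by simp [tw])

theorem tw_zero (a : ∀ i, Matrix (Y i) (X i) ℂ) (x : NT Q X) : tw a (fun _ => 0) x = 0 :=
  Prod.ext (funext fun e => by simp [tw]) (funext fun i => by simp [tw])

theorem tw_sc (a : ∀ i, Matrix (Y i) (X i) ℂ) (b : ∀ i, Matrix (X i) (Y i) ℂ) (μ : Q.qd.Fl → ℂ)
    (x : NT Q X) : tw a b (sc μ x) = sc μ (tw a b x) :=
  Prod.ext (funext fun e => by simp [tw, sc]) (funext fun i => Matrix.ext fun l r => by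
    simp [tw, sc, mul_apply, Finset.mul_sum, mul_assoc])

theorem lt_sc (ξ : ∀ i, Matrix (X i) (X i) ℂ) (μ : Q.qd.Fl → ℂ) (x : NT Q X) :
    lt ξ (sc μ x) = sc μ (lt ξ x) :=
  Prod.ext (funext fun e => by simp [lt, sc, smul_sub]) (funext fun i => Matrix.ext fun l r => by
    simp [lt, sc, mul_apply, Finset.mul_sum, mul_assoc])

theorem sc_sc (μ μ' : Q.qd.Fl → ℂ) (x : NT Q X) : sc μ (sc μ' x) = sc (fun a => μ a * μ' a) x :=
  Prod.ext (funext fun e => smul_smul _ _ _)
    (funext fun i => Matrix.ext fun l r => (mul_assoc _ _ _).symm)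

theorem sc_one (x : NT Q X) : sc (fun _ => 1) x = x :=
  Prod.ext (funext fun e => one_smul _ _) (funext fun i => Matrix.ext fun l r => one_mul _)

theorem tw_lt {a : ∀ i, Matrix (Y i) (X i) ℂ} {b : ∀ i, Matrix (X i) (Y i) ℂ}
    {ξ : ∀ i, Matrix (X i) (X i) ℂ} {η : ∀ i, Matrix (Y i) (Y i) ℂ} (ha : ∀ i, a i * ξ i = η i * a i)
    (hb : ∀ i, ξ i * b i = b i * η i) (x : NT Q X) : tw a b (lt ξ x) = lt η (tw a b x) :=
  Prod.ext (funext fun e => by
    show _ * (_ - _) * _ = _ * (_ * _ * _) - _ * _ * _ * _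
    rw [Matrix.mul_sub, Matrix.sub_mul, ← Matrix.mul_assoc, ha]
    simp only [Matrix.mul_assoc, hb]) (funext fun i => by simp [tw, lt, Matrix.mul_assoc, hb])

theorem tw_comm {a : ∀ i, Matrix (Y i) (X i) ℂ} {b : ∀ i, Matrix (X i) (Y i) ℂ}
    {g h : ∀ i, Matrix (X i) (X i) ℂ} {g' h' : ∀ i, Matrix (Y i) (Y i) ℂ}
    (ha : ∀ i, a i * g i = g' i * a i) (hb : ∀ i, h i * b i = b i * h' i) (μ : Q.qd.Fl → ℂ)
    (x : NT Q X) : tw a b (tw g h (sc μ x)) = tw g' h' (sc μ (tw a b x)) := by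
  rw [← tw_sc, tw_tw, tw_tw, funext ha, funext hb]

theorem continuous_tw {T : Type} [TopologicalSpace T] {a : T → ∀ i, Matrix (Y i) (X i) ℂ}
    {b : T → ∀ i, Matrix (X i) (Y i) ℂ} {x : T → NT Q X} (ha : ∀ i, Continuous fun t => a t i)
    (hb : ∀ i, Continuous fun t => b t i) (hx : Continuous x) :
    Continuous fun t => tw (a t) (b t) (x t) :=
  (continuous_pi fun e => ((ha _).matrix_mul ((continuous_apply e).comp hx.fst)).matrix_mul
    (hb _)).prodMk (continuous_pi fun i => ((continuous_apply i).comp hx.snd).matrix_mul (hb _))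

theorem continuous_sc {T : Type} [TopologicalSpace T] {μ : T → Q.qd.Fl → ℂ} {x : T → NT Q X}
    (hμ : ∀ a, Continuous fun t => μ t a) (hx : Continuous x) : Continuous fun t => sc (μ t) (x t) :=
  (continuous_pi fun e => (hμ _).smul ((continuous_apply e).comp hx.fst)).prodMk
    (continuous_pi fun i => continuous_matrix fun l r => (hμ _).mul
      (((continuous_apply i).comp hx.snd).matrix_elem l r))

theorem continuous_chF (η : Φ → ℤ) : Continuous (chF η) :=
  Units.continuous_val.comp (continuous_finsetProd _ fun a _ => (continuous_apply a).zpow _)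

theorem rep_std (χ : Q.qd.Fl → Φ → ℤ) (g : GG (Q.nn Φ)) (s : Q.N ℂ) : (std Q χ).rep g s =
    tw (ga Q Φ g) (ga Q Φ g⁻¹) (sc (fun a => chF (χ a) (fl Q Φ g)) s) :=
  congrArg (tw (ga Q Φ g) · _)
    (funext fun i => Matrix.inv_eq_right_inv (congrFun (KN.ga_inv g) i))

variable (χ : Q.qd.Fl → Φ → ℤ) (m v')

/-- the bases of the Jordan model -/
abbrev BL : I → Type := fun i => Bl fun k => m (i, k)

/-- the part of `N` on the Jordan model -/
def NA (_ : Q.qd.Fl → Φ → ℤ) (_ : I → ℕ) : Type := NT Q (BL m)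

noncomputable instance : AddCommGroup (NA m χ v') := inferInstanceAs (AddCommGroup (NT Q (BL m)))

noncomputable instance : Module ℂ (NA m χ v') := inferInstanceAs (Module ℂ (NT Q (BL m)))

noncomputable instance : TopologicalSpace (NA m χ v') :=
  inferInstanceAs (TopologicalSpace (NT Q (BL m)))

/-- the action on the part of `N` on the Jordan model -/
noncomputable def repA : GG (nH Q Φ m v') →* Module.End ℂ (NT Q (BL m)) where
  toFun h := tw (levH h) (levH h⁻¹) ∘ₗ sc fun a => chF (χ a) (fl (Q.wv v') Φ (fstG _ m h))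
  map_one' := LinearMap.ext fun x => by
    simp only [LinearMap.comp_apply, inv_one, map_one, chF_one, sc_one, funext levH_one]
    exact tw_one x
  map_mul' g h := LinearMap.ext fun x => by
    simp only [LinearMap.comp_apply, Module.End.mul_apply, map_mul, chF_mul, ← tw_sc, sc_sc, tw_tw,
      ← levH_mul, _root_.mul_inv_rev]

noncomputable instance : DistribMulAction (GG (nH Q Φ m v')) (NA m χ v') :=
  DistribMulAction.compHom (NT Q (BL m)) (repA m v' χ)

theorem isRep_NA : IsRep (GG (nH Q Φ m v')) (NA m χ v')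
    (Module.finrank ℂ (NT Q (BL m))) :=
  ⟨(show Nonempty (NT Q (BL m) ≃L[ℂ] (Fin _ → ℂ)) from
      ⟨ContinuousLinearEquiv.ofFinrankEq (Module.finrank_fin_fun ℂ).symm⟩),
    ⟨fun g c s => map_smul (repA m v' χ g) c s⟩,
    ⟨continuous_tw (T := GG (nH Q Φ m v') × NT Q (BL m))
      (fun i => (continuous_levH i).comp continuous_fst)
      (fun i => (continuous_levH i).comp continuous_fst.inv)
      (continuous_sc (fun a => (continuous_chF _).comp (Flav.continuous_fl.comp
        ((continuous_fstG _ m).comp continuous_fst))) continuous_snd)⟩⟩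

variable (Q) in
/-- the part annihilated by the Jordan model -/
noncomputable def KA (c : ℂ) : Submodule ℂ (NT Q (BL m)) :=
  LinearMap.ker (lt fun i => Jm _ + c • 1)

/-- the same as a subspace of the representation -/
noncomputable def KR (c : ℂ) : Submodule ℂ (NA m χ v') := KA Q m c

theorem KA_smul (c : ℂ) (h : GG (nH Q Φ m v')) (u : NA m χ v') (hu : u ∈ KR m v' χ c) :
    h • u ∈ KR m v' χ c := by
  have e : ∀ (g : GG (nH Q Φ m v')) i, levH g i * (Jm _ + c • 1) = (Jm _ + c • 1) * levH g i :=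
    fun g i => by simp [Matrix.mul_add, Matrix.add_mul, levH_Jm]
  refine (tw_lt (e h) (fun i => (e h⁻¹ i).symm) _).symm.trans ?_
  exact (congrArg _ ((lt_sc _ _ _).trans ((congrArg _ hu).trans (map_zero _)))).trans (map_zero _)

open Classical in
theorem finrank_KA (c : ℂ) :
    Module.finrank ℂ (KA Q m c) = m.nz Q + if c = 0 then m.fz Q else 0 := by
  have h : ∀ (x : NT Q (BL m)), x ∈ KA Q m c ↔
      (∀ e, x.1 e ∈ Itw (Jm _) (Jm _)) ∧ ∀ i, x.2 i ∈ Itw 0 (Jm _ + c • 1) := fun x => by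
    simp [KA, lt, Prod.ext_iff, funext_iff, mem_Itw, Matrix.mul_add, Matrix.add_mul, sub_eq_zero,
      add_eq_zero_iff_eq_neg, neg_eq_iff_eq_neg, eq_comm]
  let e : KA Q m c ≃ₗ[ℂ] (∀ e, Itw (Jm fun k => m (Q.t e, k)) (Jm fun k => m (Q.s e, k))) ×
      ∀ i, Itw (0 : Matrix (Fin (Q.w i)) _ ℂ) (Jm (fun k => m (i, k)) + c • 1) :=
    { toFun := fun x => (fun e => ⟨_, ((h _).1 x.2).1 e⟩, fun i => ⟨_, ((h _).1 x.2).2 i⟩)
      invFun := fun y => ⟨(fun e => y.1 e, fun i => y.2 i),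
        (h _).2 ⟨fun e => (y.1 e).2, fun i => (y.2 i).2⟩⟩
      map_add' := fun _ _ => rfl
      map_smul' := fun _ _ => rfl
      left_inv := fun _ => rfl
      right_inv := fun _ => rfl }
  rw [e.finrank_eq, Module.finrank_prod, Module.finrank_pi_fintype, Module.finrank_pi_fintype]
  congr 1
  · exact Finset.sum_congr rfl fun e _ => finrank_Itw _ _
  · split_ifs with hc
    · refine Finset.sum_congr rfl fun i _ => ?_
      rw [hc, zero_smul, add_zero, finrank_Itw_zero]
    · refine Finset.sum_eq_zero fun i _ => Submodule.finrank_eq_zero.2 (eq_bot_iff.2 fun x hx => ?_)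
      rw [Submodule.mem_bot, ← Matrix.mul_nonsing_inv_cancel_right _ x (det_Jm_add hc).isUnit,
        ← mem_Itw.1 hx, Matrix.zero_mul, Matrix.zero_mul]

variable {m v'} (F : Frs Q.v m v')

theorem decomp {c : ℂ} {B : Sp.En v'} (hB : c ∉ Sp.spec B) {s : Q.N ℂ}
    (h : Q.lie (mdl F c B) s = 0) :
    tw (fun i => (F i).ia) (fun i => (F i).pa) (tw (fun i => (F i).pa) (fun i => (F i).ia) s) +
      tw (fun i => (F i).ib) (fun i => (F i).pb) (tw (fun i => (F i).pb) (fun i => (F i).ib) s) =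
      s := by
  have hd : ∀ i, (B i - c • 1).det ≠ 0 := fun i e => hB (Sp.mem_spec.2 ⟨i, by
    rw [scalar_apply, ← smul_one_eq_diagonal, ← neg_sub, det_neg, e, mul_zero]⟩)
  refine Prod.ext (funext fun e => ?_) (funext fun i => ?_)
  · have h0 := (lie_eq_zero.1 h).1 e
    have h1 : (F (Q.t e)).pa * s.1 e * (F (Q.s e)).ib = 0 := eq_zero_of_Jm (hd _) (by
      have := congrArg ((F (Q.t e)).pa * · * (F (Q.s e)).ib) h0
      simp only [mdl, ← Matrix.mul_assoc, Fr.pa_blk] at this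
      rw [Matrix.mul_assoc _ (Fr.blk _ _ _ _), Fr.blk_ib] at this
      simp only [Matrix.add_mul, Matrix.mul_sub, Matrix.smul_mul, Matrix.mul_smul, Matrix.one_mul,
        Matrix.mul_one, Matrix.mul_assoc] at this ⊢
      exact eq_sub_of_add_eq this)
    have h2 : (F (Q.t e)).pb * s.1 e * (F (Q.s e)).ia = 0 := eq_zero_of_Jm' (hd _) (by
      have := congrArg ((F (Q.t e)).pb * · * (F (Q.s e)).ia) h0
      simp only [mdl, ← Matrix.mul_assoc, Fr.pb_blk] at this
      rw [Matrix.mul_assoc _ (Fr.blk _ _ _ _), Fr.blk_ia] at this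
      simp only [Matrix.mul_add, Matrix.sub_mul, Matrix.smul_mul, Matrix.mul_smul, Matrix.one_mul,
        Matrix.mul_one, Matrix.mul_assoc] at this ⊢
      exact sub_eq_of_eq_add this)
    refine (Fr.eq_blk (F (Q.t e)) (F (Q.s e)) ?_ ?_).symm
    · rw [← Matrix.one_mul (s.1 e * _), ← (F (Q.t e)).sum, Matrix.add_mul, Matrix.mul_assoc,
        Matrix.mul_assoc, ← Matrix.mul_assoc (F _).pb, h2, Matrix.mul_zero, add_zero,
        ← Matrix.mul_assoc (F _).pa]
      rfl
    · rw [← Matrix.one_mul (s.1 e * _), ← (F (Q.t e)).sum, Matrix.add_mul, Matrix.mul_assoc,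
        Matrix.mul_assoc, ← Matrix.mul_assoc (F _).pa, h1, Matrix.mul_zero, zero_add,
        ← Matrix.mul_assoc (F _).pb]
      rfl
  · show s.2 i * (F i).ia * (F i).pa + s.2 i * (F i).ib * (F i).pb = _
    rw [Matrix.mul_assoc, Matrix.mul_assoc, ← Matrix.mul_add, (F i).sum, Matrix.mul_one]

/-- projection to the Jordan model -/
noncomputable abbrev prA : Q.N ℂ →ₗ[ℂ] NT Q (BL m) := tw (fun i => (F i).pa) fun i => (F i).ia

/-- inclusion of the Jordan model -/
noncomputable abbrev emA : NT Q (BL m) →ₗ[ℂ] Q.N ℂ := tw (fun i => (F i).ia) fun i => (F i).pa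

/-- projection to the complement -/
noncomputable abbrev prB : Q.N ℂ →ₗ[ℂ] NT Q fun i => Fin (v' i) :=
  tw (fun i => (F i).pb) fun i => (F i).ib

/-- inclusion of the complement -/
noncomputable abbrev emB : NT Q (fun i => Fin (v' i)) →ₗ[ℂ] Q.N ℂ :=
  tw (fun i => (F i).ib) fun i => (F i).pb

theorem prA_emA (x : NT Q (BL m)) : prA F (emA F x) = x := by
  simp only [tw_tw, Fr.aa, tw_one]

theorem prA_emB (x : NT Q fun i => Fin (v' i)) : prA F (emB F x) = 0 := by
  simp only [tw_tw, Fr.ba, tw_zero]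

theorem prB_emA (x : NT Q (BL m)) : prB F (emA F x) = 0 := by
  simp only [tw_tw, Fr.ab, tw_zero]

theorem prB_emB (x : NT Q fun i => Fin (v' i)) : prB F (emB F x) = x := by
  simp only [tw_tw, Fr.bb, tw_one]

theorem rep_rho (h : GG (nH Q Φ m v')) (s : Q.N ℂ) : (std Q χ).rep (rho F h) s =
    tw (ga Q Φ (rho F h)) (ga Q Φ (rho F h⁻¹)) (sc (fun a => chF (χ a) (fl Q Φ (rho F h))) s) := by
  rw [rep_std, map_inv (rho F)]

theorem rep_fst (h : GG (nH Q Φ m v')) (s : NT Q fun i => Fin (v' i)) :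
    (std (Q.wv v') χ).rep (fstG _ m h) s = tw (Q := Q) (ga (Q.wv v') Φ (fstG _ m h))
      (ga (Q.wv v') Φ (fstG _ m h⁻¹)) (sc (fun a => chF (χ a) (fl Q Φ (rho F h))) s) :=
  rep_std (Q := Q.wv v') χ _ s

theorem prA_rep (h : GG (nH Q Φ m v')) (s : Q.N ℂ) :
    prA F ((std Q χ).rep (rho F h) s) = repA m v' χ h (prA F s) := by
  rw [rep_rho]
  exact tw_comm (fun i => (F i).pa_blk (F i) _ _) (fun i => (F i).blk_ia (F i) _ _) _ s

theorem prB_rep (h : GG (nH Q Φ m v')) (s : Q.N ℂ) :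
    prB F ((std Q χ).rep (rho F h) s) = (std (Q.wv v') χ).rep (fstG _ m h) (prB F s) := by
  rw [rep_rho, rep_fst χ F]
  exact tw_comm (fun i => (F i).pb_blk (F i) _ _) (fun i => (F i).blk_ib (F i) _ _) _ s

theorem emB_rep (h : GG (nH Q Φ m v')) (s : NT Q fun i => Fin (v' i)) :
    emB F ((std (Q.wv v') χ).rep (fstG _ m h) s) = (std Q χ).rep (rho F h) (emB F s) := by
  rw [rep_rho, rep_fst χ F]
  exact tw_comm (fun i => ((F i).blk_ib (F i) _ _).symm) (fun i => ((F i).pb_blk (F i) _ _).symm) _ s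

theorem prA_add (a : NT Q (BL m)) (b : NT Q fun i => Fin (v' i)) : prA F (emA F a + emB F b) = a := by
  rw [map_add, prA_emA, prA_emB, add_zero]

theorem prB_add (a : NT Q (BL m)) (b : NT Q fun i => Fin (v' i)) : prB F (emA F a + emB F b) = b := by
  rw [map_add, prB_emA, prB_emB, zero_add]

variable (c : ℂ) (B : Sp.En v')

theorem lie_eq (ξ : Q.En ℂ) (s : Q.N ℂ) : Q.lie ξ s = lt (X := fun i => Fin (Q.v i)) ξ s := rfl

theorem prA_lie (s : Q.N ℂ) :
    prA F (Q.lie (mdl F c B) s) = lt (fun i => Jm _ + c • 1) (prA F s) := by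
  rw [lie_eq]
  exact tw_lt (fun i => (F i).pa_blk (F i) _ _) (fun i => (F i).blk_ia (F i) _ _) s

theorem prB_lie (s : Q.N ℂ) : prB F (Q.lie (mdl F c B) s) = lt B (prB F s) := by
  rw [lie_eq]
  exact tw_lt (fun i => (F i).pb_blk (F i) _ _) (fun i => (F i).blk_ib (F i) _ _) s

theorem lie_emA (x : NT Q (BL m)) :
    Q.lie (mdl F c B) (emA F x) = emA F (lt (fun i => Jm _ + c • 1) x) := by
  rw [lie_eq]
  exact (tw_lt (fun i => ((F i).blk_ia (F i) _ _).symm) (fun i => ((F i).pa_blk (F i) _ _).symm)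
    x).symm

theorem lie_emB (x : NT Q fun i => Fin (v' i)) : Q.lie (mdl F c B) (emB F x) = emB F (lt B x) := by
  rw [lie_eq]
  exact (tw_lt (fun i => ((F i).blk_ib (F i) _ _).symm) (fun i => ((F i).pb_blk (F i) _ _).symm)
    x).symm

/-- the lower block -/
noncomputable def low (ξ : Q.En ℂ) : Sp.En v' := fun i => (F i).pb * ξ i * (F i).ib

theorem low_mdl : low F (mdl F c B) = B := funext fun i => pb_mdl_ib B i

theorem continuous_low : Continuous (low F) := continuous_pi fun i =>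
  (continuous_const.matrix_mul (continuous_apply i)).matrix_mul continuous_const

variable {F c} {A : Flav Q Φ} {K' : Set ℂ}

theorem eq_mdl (x : Sl F A c K') : mdl F c (low F x.1.2.en) = x.1.2.en := by
  obtain ⟨B, -, e⟩ := x.2.2
  rw [e, low_mdl]

theorem spec_low (x : Sl F A c K') : Sp.spec (low F x.1.2.en) ⊆ K' := by
  obtain ⟨B, h, e⟩ := x.2.2
  rwa [e, low_mdl]

end SlB

open SlB

open Classical in
theorem bnd_Sl (χ : Q.qd.Fl → Φ → ℤ) {K' : Set ℂ} (hK' : IsLocallyClosed K') {c : ℂ} (hc : c ∉ K')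
    (F : Frs Q.v m v') {D : ℤ} {h : ℤ → ℕ}
    (H : Bnd (GG ((Q.wv v').nn Φ)) (Cm (std (Q.wv v') χ) K') D h) (hb : Bb h) :
    Bnd (GG (nH Q Φ m v')) (Sl F (std Q χ) c K')
      (D + m.nz Q + if c = 0 then (m.fz Q : ℤ) else 0) (cnv (hB m) h) := by
  haveI : Nice (Cm (std (Q.wv v') χ) K') := nice_Cm hK'
  haveI : Nice (Sl F (std Q χ) c K') := nice_Sl hK'
  let Y := Pr ((Q.wv v').nn Φ) m (Cm (std (Q.wv v') χ) K') Unit
  let W := SubRep (KR m v' χ c) (KA_smul m v' χ c)
  have HY : Bnd (GG (nH Q Φ m v')) Y D (cnv (hB m) h) :=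
    Bnd.prod ((sumProd _ m).isProd (B := Y) (b₁ := Prod.fst) (fun _ _ => rfl) (b₂ := Prod.snd)
      (fun _ _ => rfl) IsHomeomorph.id) H hb (bnd_BG m) fun d => hB_neg m
  have h1 : ∀ x : Sl F (std Q χ) c K', Q.lie (mdl F c (low F x.1.2.en)) x.1.1 = 0 := fun x =>
    (eq_mdl x).symm ▸ x.2.1
  let p : Sl F (std Q χ) c K' →[GG (nH Q Φ m v')] Y :=
    ⟨fun x => (⟨(prB F x.1.1, low F x.1.2.en), (prB_lie F c _ _).symm.trans
      ((congrArg _ (h1 x)).trans (map_zero _)), spec_low x⟩, ()),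
      fun g x => Prod.ext (Subtype.ext (Prod.ext (prB_rep χ F g x.1.1)
        ((congrArg (fun ξ => low F (ga Q Φ (rho F g) * ξ * ga Q Φ (rho F g)⁻¹))
          (eq_mdl x).symm).trans ((congrArg _ (mdl_conj F g c _)).trans (low_mdl F c _))))) rfl⟩
  let κ : Sl F (std Q χ) c K' →[GG (nH Q Φ m v')] W :=
    ⟨fun x => ⟨prA F x.1.1, (prA_lie F c _ _).symm.trans ((congrArg _ (h1 x)).trans (map_zero _))⟩,
      fun g x => Subtype.ext (prA_rep χ F g x.1.1)⟩
  let q : Y × W → Sl F (std Q χ) c K' := fun y =>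
    ⟨((emA F y.2.1 + emB F y.1.1.1.1 : Q.N ℂ), mdl F c y.1.1.1.2.en), by
      refine (map_add _ _ _).trans ?_
      exact (congrArg₂ (· + ·) ((lie_emA F c _ _).trans ((congrArg _ y.2.2).trans (map_zero _)))
        ((lie_emB F c _ _).trans ((congrArg _ y.1.1.2.1).trans (map_zero _)))).trans (add_zero _),
      _, y.1.1.2.2, rfl⟩
  let s : Y →[GG (nH Q Φ m v')] Sl F (std Q χ) c K' :=
    ⟨fun y => ⟨(emB F y.1.1.1, mdl F c y.1.1.2.en), (lie_emB F c _ _).trans
      ((congrArg _ y.1.2.1).trans (map_zero _)), _, y.1.2.2, rfl⟩,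
      fun g y => Subtype.ext (Prod.ext (emB_rep χ F g y.1.1.1) (mdl_conj F g c _).symm)⟩
  have c1 : Continuous fun x : Sl F (std Q χ) c K' => QL.vec x.1.1 :=
    Sl.isEmbedding_val.continuous.fst
  have c2 : Continuous p := (((prB F).continuous_of_finiteDimensional.comp c1).prodMk
    ((continuous_low F).comp Sl.isEmbedding_val.continuous.snd)).subtype_mk _ |>.prodMk
      continuous_const
  have c3 : Continuous κ := ((prA F).continuous_of_finiteDimensional.comp c1).subtype_mk _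
  have c4 : Continuous fun y : Y × W => y.1.1.1 :=
    continuous_subtype_val.comp (continuous_fst.comp continuous_fst)
  have c6 : Continuous fun y : W => (y.1 : NT Q (BL m)) := continuous_subtype_val
  have c5 : Continuous q := ((((emA F).continuous_of_finiteDimensional.comp
    (c6.comp continuous_snd)).add ((emB F).continuous_of_finiteDimensional.comp c4.fst)).prodMk
      (continuous_mdl.comp c4.snd)).subtype_mk _
  have iso := isoEH_thom ((isRep_NA m v' χ).subRep _ (KA_smul m v' χ c)) (p := p) (κ := κ) (s := s)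
    (isHomeomorph_iff_exists_inverse.2 ⟨c2.prodMk c3, q, fun x => Subtype.ext (Prod.ext
      (decomp F (fun e => hc (spec_low x e)) (h1 x)) (eq_mdl x)), fun y => Prod.ext (Prod.ext
        (Subtype.ext (Prod.ext (prB_add F _ _) (low_mdl F c _))) rfl)
          (Subtype.ext (prA_add F _ _)), c5⟩)
    (fun y => Prod.ext (Subtype.ext (Prod.ext (prB_emB F _) (low_mdl F c _))) rfl)
    fun y => Subtype.ext (prA_emB F _)
  have := HY.of_bijective' iso.bij (c := -(Module.finrank ℂ (KA Q m c) : ℤ)) fun k β hβ =>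
    (mul_neg (2 : ℤ) _).symm ▸ iso.deg k β hβ
  rwa [finrank_KA, sub_neg_eq_add, Nat.cast_add, Nat.cast_ite, Nat.cast_zero, ← add_assoc] at this

end Vale.Agent.P291Z
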